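import Vale.Agent.P347.Local.Contract
import Vale.Agent.P347.Main

/-!
# P347: one colour from first-order queries

Gradient descent finds the coordinates of the colour at which the gradient nearly vanishes; there the
separable sampler draws the colour, all sites sharing every query.
-/

namespace P347

open MeasureTheory Finset
open scoped BigOperators RealInnerProductSpace

noncomputable section

variable {d χ : ℕ}

theorem integral_close_of_sets {α : Type} [MeasurableSpace α] {μ ν : Measure α}
    [IsProbabilityMeasure μ] [IsProbabilityMeasure ν] {ε : ℝ}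
    (h : ∀ S, MeasurableSet S → |μ.real S - ν.real S| ≤ ε) {g : α → ℝ} (hg : Test g) :
    |∫ x, g x ∂μ - ∫ x, g x ∂ν| ≤ ε := by
  have hmono : ∀ m : Measure α, [IsProbabilityMeasure m] →
      IntervalIntegrable (fun t => m.real {a | t ≤ g a}) volume 0 1 := fun m _ =>
    Antitone.intervalIntegrable fun s t hst =>
      measureReal_mono (fun a (ha : t ≤ g a) => hst.trans ha)
  have hrep : ∀ m : Measure α, [IsProbabilityMeasure m] →
      ∫ x, g x ∂m = ∫ t in (0 : ℝ)..1, m.real {a | t ≤ g a} := fun m _ => by
    rw [intervalIntegral.integral_of_le zero_le_one]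
    exact Integrable.integral_eq_integral_Ioc_meas_le (hg.integrable m)
      (Filter.Eventually.of_forall hg.nonneg) (Filter.Eventually.of_forall hg.le_one)
  rw [hrep μ, hrep ν, ← intervalIntegral.integral_sub (hmono μ) (hmono ν), ← Real.norm_eq_abs]
  refine (intervalIntegral.norm_integral_le_of_norm_le_const (C := ε) fun t _ => ?_).trans
    (le_of_eq (by simp))
  rw [Real.norm_eq_abs]
  exact h _ (measurableSet_le measurable_const hg.meas)

theorem Block.grad_zero {E : Type} [NormedAddCommGroup E] [InnerProductSpace ℝ E] {W : E → ℝ}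
    {D : E → E} (h : Block W D) : D 0 = 0 := by
  have := h.line (D 0) (le_refl (0 : ℝ))
  simp only [zero_smul, zero_mul, mul_zero] at this
  exact inner_self_eq_zero.1 (le_antisymm this.2 this.1)

/-- Seeds of one colour step. -/
abbrev StepSeed (d J K : ℕ) : Type := Omega (id : Fin d → Fin d) J K

/-- Their law. -/
def stepLaw (d J K : ℕ) : Measure (StepSeed d J K) :=
  Measure.pi fun i => Measure.pi fun _ : Fin J => seedLaw (Part (id : Fin d → Fin d) i) K

instance (d J K : ℕ) : IsProbabilityMeasure (stepLaw d J K) := by unfold stepLaw; infer_instance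

variable (V : Space d → ℝ) (col : Fin d → Fin χ)

/-- One step of gradient descent on the coordinates of a colour. -/
def descendStep (g : Space d) (m : Fin d → ℝ) : Fin d → ℝ := fun i => m i - 2 / 3 * g i

/-- Gradient descent from zero. -/
def descend (c : Fin χ) (x : Space d) : ℕ → Fin d → ℝ
  | 0 => 0
  | n + 1 => descendStep (gradient V (upd col c (descend c x n) x)) (descend c x n)

/-- The point queried for the sampler. -/
def samplePoint (c : Fin χ) (x : Space d) (m : Fin d → ℝ) {J K : ℕ} (w : StepSeed d J K)
    (n : Fin (J * K)) : Space d :=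
  upd col c (m + (query id w n).ofLp) x

/-- The new state from the answers: `e` is the gradient at the centre. -/
def stepOut (c : Fin χ) (x : Space d) (m : Fin d → ℝ) (e : Space d) {J K : ℕ}
    (w : StepSeed d J K) (r : Fin (J * K) → ℝ × Space d) : Space d :=
  upd col c (m + (output id w fun n => (0, WithLp.toLp 2 fun i =>
    if col i = c then (r n).2 i - e i else query id w n i)).ofLp) x

/-- One colour step. -/
def stepMap (G : ℕ) {J K : ℕ} (c : Fin χ) (w : StepSeed d J K) (x : Space d) : Space d :=
  stepOut col c x (descend V col c x G) (gradient V (upd col c (descend V col c x G) x)) w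
    fun n => (V (samplePoint col c x (descend V col c x G) w n),
      gradient V (samplePoint col c x (descend V col c x G) w n))

/-- The colour step on test functions. -/
def stepKern (G J K : ℕ) (c : Fin χ) (g : Space d → ℝ) (x : Space d) : ℝ :=
  ∫ w, g (stepMap V col G c w x) ∂stepLaw d J K

variable {V col}

theorem measurable_samplePoint (c : Fin χ) {J K : ℕ} (n : Fin (J * K)) :
    Measurable fun z : Space d × (Fin d → ℝ) × StepSeed d J K =>
      samplePoint col c z.1 z.2.1 z.2.2 n := by
  have hq := measurable_query (id : Fin d → Fin d) (J := J) (K := K)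
  exact (continuous_upd col c).measurable.comp
    (f := fun z : Space d × (Fin d → ℝ) × StepSeed d J K =>
      (z.2.1 + (query id z.2.2 n).ofLp, z.1))
    ((by fun_prop : Measurable _))

theorem measurable_stepOut (c : Fin χ) {J K : ℕ} :
    Measurable fun z : Space d × (Fin d → ℝ) × Space d × StepSeed d J K ×
      (Fin (J * K) → ℝ × Space d) => stepOut col c z.1 z.2.1 z.2.2.1 z.2.2.2.1 z.2.2.2.2 := by
  have hq := measurable_query (id : Fin d → Fin d) (J := J) (K := K)
  have hpack : Measurable fun z : Space d × (Fin d → ℝ) × Space d × StepSeed d J K ×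
      (Fin (J * K) → ℝ × Space d) => fun n : Fin (J * K) => ((0 : ℝ), (WithLp.toLp 2 fun i =>
        if col i = c then (z.2.2.2.2 n).2 i - z.2.2.1 i else query id z.2.2.2.1 n i : Space d)) := by
    refine measurable_pi_lambda _ fun n => measurable_const.prodMk
      ((PiLp.continuous_toLp 2 _).measurable.comp (measurable_pi_lambda _ fun i => ?_))
    split_ifs <;> fun_prop
  have hout := (measurable_output (id : Fin d → Fin d) (J := J) (K := K)).comp
    ((by fun_prop : Measurable fun z : Space d × (Fin d → ℝ) × Space d × StepSeed d J K ×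
      (Fin (J * K) → ℝ × Space d) => z.2.2.2.1).prodMk hpack)
  exact (continuous_upd col c).measurable.comp ((((by fun_prop : Measurable fun z : Space d ×
    (Fin d → ℝ) × Space d × StepSeed d J K × (Fin (J * K) → ℝ × Space d) => z.2.1)).add
      ((PiLp.continuous_ofLp 2 _).measurable.comp hout)).prodMk measurable_fst)

theorem continuous_descend (hM : Model V col) (c : Fin χ) :
    ∀ n, Continuous fun x => descend V col c x n
  | 0 => continuous_const
  | n + 1 => by
    have h1 := continuous_descend hM c n
    have h2 : Continuous fun x => gradient V (upd col c (descend V col c x n) x) :=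
      hM.block.cont.comp ((continuous_upd col c).comp (h1.prodMk continuous_id))
    show Continuous fun x => descendStep (gradient V (upd col c (descend V col c x n) x))
      (descend V col c x n)
    unfold descendStep
    exact continuous_pi fun i => ((continuous_apply i).comp h1).sub
      (continuous_const.mul ((by fun_prop : Continuous fun v : Space d => v i).comp h2))

theorem measurable_stepMap (hM : Model V col) (G : ℕ) {J K : ℕ} (c : Fin χ) :
    Measurable fun z : Space d × StepSeed d J K => stepMap V col G c z.2 z.1 := by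
  have hm := (continuous_descend hM c G).measurable.comp
    (measurable_fst : Measurable fun z : Space d × StepSeed d J K => z.1)
  have hV := hM.diff.continuous.measurable
  have hg := hM.block.cont.measurable
  have he := hg.comp ((continuous_upd col c).measurable.comp (hm.prodMk measurable_fst))
  have hr : Measurable fun z : Space d × StepSeed d J K => fun n : Fin (J * K) =>
      (V (samplePoint col c z.1 (descend V col c z.1 G) z.2 n),
        gradient V (samplePoint col c z.1 (descend V col c z.1 G) z.2 n)) :=
    measurable_pi_lambda _ fun n =>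
      have hp := (measurable_samplePoint (col := col) c n).comp
        (measurable_fst.prodMk (hm.prodMk measurable_snd))
      (hV.comp hp).prodMk (hg.comp hp)
  exact (measurable_stepOut (col := col) c).comp
    (measurable_fst.prodMk (hm.prodMk (he.prodMk (measurable_snd.prodMk hr))))

theorem test_stepKern (hM : Model V col) (G J K : ℕ) (c : Fin χ) {g : Space d → ℝ} (hg : Test g) :
    Test (stepKern V col G J K c g) := by
  have hm := hg.meas.comp (measurable_stepMap hM G (J := J) (K := K) c)
  have ht : ∀ x, Test fun w : StepSeed d J K => g (stepMap V col G c w x) := fun x =>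
    ⟨hm.comp measurable_prodMk_left, fun _ => hg.nonneg _, fun _ => hg.le_one _⟩
  exact ⟨(hm.stronglyMeasurable.integral_prod_right').measurable,
    fun x => ((ht x).integral_mem _).1, fun x => ((ht x).integral_mem _).2⟩

theorem descend_small (hM : Model V col) (c : Fin χ) (x : Space d) (i : Fin d) (hi : col i = c) :
    ∀ n, |gradient V (upd col c (descend V col c x n) x) i| ≤ (1 / 3) ^ n * (2 * ‖x‖)
  | 0 => by
    have h1 := PiLp.norm_apply_le (gradient V (upd col c 0 x)) i
    have h2 := hM.lip 0 (upd col c 0 x)
    rw [hM.block.grad_zero, sub_zero, zero_add] at h2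
    have h3 : ‖upd col c 0 x‖ ≤ ‖x‖ := norm_le_of_coords fun k => by
      by_cases hk : col k = c <;> simp [hk]
    rw [Real.norm_eq_abs] at h1
    simp only [descend, pow_zero, one_mul]
    linarith
  | n + 1 => by
    have ih := descend_small hM c x i hi n
    set m := descend V col c x n with hm
    set e := gradient V (upd col c m x) i with he
    have S := slope_slopeAt hM x i
    have h0 : slopeAt V col x i (m i) = e := by rw [he, slope_eq hM hi]
    rw [slope_eq hM hi]
    simp only [descend, descendStep, ← hm, ← he]
    have key : |slopeAt V col x i (m i - 2 / 3 * e)| ≤ 1 / 3 * |e| := by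
      rcases le_total 0 e with hp | hp
      · have h1 := S.lo (m i - 2 / 3 * e) (2 / 3 * e) (by positivity)
        have h2 := S.hi (m i - 2 / 3 * e) (2 / 3 * e) (by positivity)
        rw [sub_add_cancel, h0] at h1 h2
        rw [abs_of_nonneg hp, abs_le]
        constructor <;> linarith
      · have h1 := S.lo (m i) (-(2 / 3 * e)) (by linarith)
        have h2 := S.hi (m i) (-(2 / 3 * e)) (by linarith)
        simp only [h0, ← sub_eq_add_neg] at h1 h2
        rw [abs_of_nonpos hp, abs_le]
        constructor <;> linarith
    refine key.trans ?_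
    rw [pow_succ]
    nlinarith

/-- The sum of one potential for each coordinate. -/
def sumPot (τ : Fin d → ℝ → ℝ) (z : Space d) : ℝ := ∑ i, pot (τ i) (z i)

section Separable

variable {τ : Fin d → ℝ → ℝ}

theorem sumPot_hasFDerivAt (hτ : ∀ i, Slope (τ i)) (z : Space d) :
    HasFDerivAt (sumPot τ) (∑ i, τ i (z i) • (EuclideanSpace.proj i : Space d →L[ℝ] ℝ)) z :=
  HasFDerivAt.fun_sum fun i _ => ((hτ i).hasDerivAt (z i)).comp_hasFDerivAt
    (f := fun z : Space d => z i) z (EuclideanSpace.proj i : Space d →L[ℝ] ℝ).hasFDerivAt

theorem gradient_sumPot (hτ : ∀ i, Slope (τ i)) (z : Space d) :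
    gradient (sumPot τ) z = WithLp.toLp 2 fun i => τ i (z i) :=
  ext_inner_right ℝ fun v => by
    rw [inner_gradient, (sumPot_hasFDerivAt hτ z).fderiv, PiLp.inner_apply]
    simp [RCLike.inner_apply, mul_comm]

theorem block_sumPot (hτ : ∀ i, Slope (τ i)) (hτ0 : ∀ i, τ i 0 = 0) :
    Block (sumPot τ) (gradient (sumPot τ)) := by
  have hbl : ∀ i z, ‖z‖ ^ 2 ≤ τ i z * z ∧ τ i z * z ≤ 2 * ‖z‖ ^ 2 := fun i z => by
    have h := (hτ i).block (hτ0 i)
    have h1 := h.lower z
    have h2 := h.upper z
    simp only [zero_add, RCLike.inner_apply, conj_trivial] at h1 h2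
    rw [mul_comm] at h1 h2
    exact ⟨h1, h2⟩
  exact
    { cont := by
        rw [funext (gradient_sumPot hτ)]
        exact (PiLp.continuous_toLp 2 _).comp (continuous_pi fun i =>
          (hτ i).cont.comp (by fun_prop))
      zero := by simp [sumPot, pot]
      deriv := fun z t => by
        have g0 : HasDerivAt (fun t : ℝ => t • z) z t := by
          simpa only [one_smul, id_eq] using (hasDerivAt_id t).smul_const z
        rw [inner_gradient, (sumPot_hasFDerivAt hτ (t • z)).fderiv]
        exact HasFDerivAt.comp_hasDerivAt (l := sumPot τ) (f := fun t : ℝ => t • z) t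
          (sumPot_hasFDerivAt hτ (t • z)) g0
      lower := fun z => by
        rw [gradient_sumPot hτ, EuclideanSpace.norm_sq_eq, PiLp.inner_apply]
        refine sum_le_sum fun i _ => ?_
        simpa [RCLike.inner_apply, mul_comm] using (hbl i (z i)).1
      upper := fun z => by
        rw [gradient_sumPot hτ, EuclideanSpace.norm_sq_eq, PiLp.inner_apply, mul_sum]
        refine sum_le_sum fun i _ => ?_
        simpa [RCLike.inner_apply, mul_comm] using (hbl i (z i)).2 }

theorem sumPot_split (z : Space d) :
    sumPot τ z = ∑ i, sumPot τ (emb id i (res id i z)) := by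
  refine sum_congr rfl fun i _ => ?_
  simp only [sumPot, emb_res, id_eq]
  rw [sum_eq_single i]
  · simp
  · intro k _ hk; simp [pot, hk]
  · simp

theorem gibbs_sumPot (hτ : ∀ i, Slope (τ i)) (hτ0 : ∀ i, τ i 0 = 0) (G : Space d → ℝ) :
    ∫ z, G z ∂gibbs (sumPot τ)
      = ∫ p, G (WithLp.toLp 2 p) ∂Measure.pi fun i => siteLaw (τ i) := by
  have hU := block_sumPot hτ hτ0
  have hexp : ∀ p : Fin d → ℝ, Real.exp (-sumPot τ (WithLp.toLp 2 p))
      = (∏ i, ∫ t, Real.exp (-pot (τ i) t)) * ∏ i, siteDensity (τ i) (p i) := fun p => by
    rw [← prod_mul_distrib]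
    simp only [sumPot, ← sum_neg_distrib, Real.exp_sum]
    refine prod_congr rfl fun i _ => ?_
    rw [siteDensity, mul_div_cancel₀ _ (hτ i).integral_pos.ne']
  have hZ : ∫ z, Real.exp (-sumPot τ z) = ∏ i, ∫ t, Real.exp (-pot (τ i) t) := by
    rw [← (PiLp.volume_preserving_toLp (Fin d)).integral_comp
      (MeasurableEquiv.toLp 2 (Fin d → ℝ)).measurableEmbedding]
    simp only [hexp]
    rw [integral_const_mul, integral_fintype_prod_volume_eq_prod,
      prod_congr rfl fun i _ => (hτ i).integral_density, prod_const_one, mul_one]
  have hmU : Measurable fun z => Real.exp (-sumPot τ z) / ∫ y, Real.exp (-sumPot τ y) :=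
    ((Real.continuous_exp.comp hU.continuous_potential.neg).div_const _).measurable
  rw [gibbs, integral_withDensity_eq_integral_toReal_smul₀ hmU.ennreal_ofReal.aemeasurable
      (Filter.Eventually.of_forall fun _ => ENNReal.ofReal_lt_top),
    ← (PiLp.volume_preserving_toLp (Fin d)).integral_comp
      (MeasurableEquiv.toLp 2 (Fin d → ℝ)).measurableEmbedding,
    integral_pi_site hτ]
  refine integral_congr_ae (Filter.Eventually.of_forall fun p => ?_)
  dsimp only
  rw [hZ, smul_eq_mul, ENNReal.toReal_ofReal (div_nonneg (Real.exp_nonneg _)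
    (prod_nonneg fun i _ => (hτ i).integral_pos.le)), hexp]
  rw [mul_div_cancel_left₀ _ (prod_ne_zero_iff.2 fun i _ => (hτ i).integral_pos.ne')]

theorem measurable_realised {U : Space d → ℝ} {D : Space d → Space d} (hU : Measurable U)
    (hD : Measurable D) {J K : ℕ} :
    Measurable fun w : StepSeed d J K =>
      output id w fun n => (U (query id w n), D (query id w n)) := by
  have hr : Measurable fun w : StepSeed d J K => fun n : Fin (J * K) =>
      (U (query id w n), D (query id w n)) :=
    measurable_pi_lambda _ fun n =>
      have hp : Measurable fun w : StepSeed d J K => query id w n :=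
        (measurable_pi_apply n).comp (measurable_query id)
      (hU.comp hp).prodMk (hD.comp hp)
  have h := (measurable_output (id : Fin d → Fin d) (J := J) (K := K)).comp
    (f := fun w : StepSeed d J K => (w, fun n : Fin (J * K) => (U (query id w n), D (query id w n))))
    (measurable_id.prodMk hr)
  simpa only [Function.comp_def, Function.uncurry_apply_pair] using h

theorem sumPot_sampler (hτ : ∀ i, Slope (τ i)) (hτ0 : ∀ i, τ i 0 = 0) {J K : ℕ} {L δ : ℝ}
    (hδ0 : 0 ≤ δ) (hδ : δ ≤ 1 / 4) (hK : Real.exp (3 * L) ≤ δ * 2 ^ K)
    (hL : 2 ^ 1 * Real.exp (-L / 4) ≤ δ) (hJ : Real.exp (-((J : ℝ) / 2 ^ (1 + 1))) ≤ δ)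
    {G : Space d → ℝ} (hG : Test G) :
    |∫ w, G (output id w fun n => (sumPot τ (query id w n), gradient (sumPot τ) (query id w n)))
        ∂stepLaw d J K - ∫ p, G (WithLp.toLp 2 p) ∂Measure.pi fun i => siteLaw (τ i)|
      ≤ 3 * d * δ := by
  have hU := block_sumPot hτ hτ0
  have hd : Differentiable ℝ (sumPot τ) := fun z => (sumPot_hasFDerivAt hτ z).differentiableAt
  have : IsProbabilityMeasure (gibbs (sumPot τ)) := ⟨gibbs_univ hU⟩
  set out := fun w : StepSeed d J K =>
    output id w fun n => (sumPot τ (query id w n), gradient (sumPot τ) (query id w n))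
  have houtm : Measurable out := measurable_realised hd.continuous.measurable hU.cont.measurable
  have : IsProbabilityMeasure ((stepLaw d J K).map out) :=
    Measure.isProbabilityMeasure_map houtm.aemeasurable
  rw [← gibbs_sumPot hτ hτ0, ← integral_map houtm.aemeasurable hG.meas.aestronglyMeasurable]
  exact integral_close_of_sets (μ := (stepLaw d J K).map out) (ν := gibbs (sumPot τ))
    (fun S hS => algorithm (blk := id) hd hU sumPot_split (b := 1)
      (fun i => by simp [Finset.filter_eq']) hδ0 hδ hK hL hJ hS) hG

theorem site_translate {σ : Fin d → ℝ → ℝ} (hσ : ∀ i, Slope (σ i)) (hτ : ∀ i, Slope (τ i))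
    (a : Fin d → ℝ) (h : ∀ i s, τ i s = σ i (a i + s)) (H : (Fin d → ℝ) → ℝ) :
    ∫ p, H (a + p) ∂Measure.pi (fun i => siteLaw (τ i))
      = ∫ s, H s ∂Measure.pi fun i => siteLaw (σ i) := by
  rw [integral_pi_site hσ, integral_pi_site hτ,
    ← integral_add_left_eq_self (μ := (volume : Measure (Fin d → ℝ)))
      (fun s => (∏ i, siteDensity (σ i) (s i)) * H s) a]
  have hd : ∀ i t, siteDensity (τ i) t = siteDensity (σ i) (a i + t) := fun i t => by
    have hp : ∀ s, pot (τ i) s = pot (σ i) (a i + s) - pot (σ i) (a i) := fun s => by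
      simp only [pot, h]
      rw [intervalIntegral.integral_comp_add_left, add_zero,
        intervalIntegral.integral_interval_sub_left ((hσ i).cont.intervalIntegrable _ _)
          ((hσ i).cont.intervalIntegrable _ _)]
    simp only [siteDensity, hp, neg_sub, Real.exp_sub]
    simp only [Real.exp_neg, div_eq_mul_inv]
    rw [integral_const_mul, integral_add_left_eq_self fun s => (Real.exp (pot (σ i) s))⁻¹]
    field_simp
  simp only [hd, Pi.add_apply]

end Separable

/-- **One colour step about any centre at which the gradient nearly vanishes.** -/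
theorem step_close_at (hM : Model V col) (c : Fin χ) {J K : ℕ} {L δ : ℝ} (hδ0 : 0 ≤ δ)
    (hδ : δ ≤ 1 / 4) (hK : Real.exp (3 * L) ≤ δ * 2 ^ K) (hL : 2 ^ 1 * Real.exp (-L / 4) ≤ δ)
    (hJ : Real.exp (-((J : ℝ) / 2 ^ (1 + 1))) ≤ δ) {g : Space d → ℝ} (hg : Test g) (x : Space d)
    (m : Fin d → ℝ) {β : ℝ} (hβ0 : 0 ≤ β)
    (hβ : ∀ i, col i = c → |gradient V (upd col c m x) i| ≤ β) :
    |∫ w, g (stepOut col c x m (gradient V (upd col c m x)) w
          fun n => (V (samplePoint col c x m w n), gradient V (samplePoint col c x m w n)))
        ∂stepLaw d J K - kern V col c g x|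
      ≤ 3 * d * δ + perturbConst * (d * β) := by
  set e := gradient V (upd col c m x) with he
  set m₀ : Fin d → ℝ := fun i => if col i = c then m i else 0
  set τ := fun i s => if col i = c then slopeAt V col x i (m i + s) - e i else s
  set σ := fun i s => if col i = c then slopeAt V col x i s - e i else s
  have hσ : ∀ i, Slope (σ i) := fun i => by
    by_cases h : col i = c
    · simp only [σ, if_pos h]
      have S := slope_slopeAt hM x i
      exact ⟨S.cont.sub continuous_const, fun s a ha => by linarith [S.lo s a ha],
        fun s a ha => by linarith [S.hi s a ha]⟩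
    · simp only [σ, if_neg h]; exact slope_id
  have hτσ : ∀ i s, τ i s = σ i (m₀ i + s) := fun i s => by
    by_cases h : col i = c <;> simp [τ, σ, m₀, h]
  have hτ : ∀ i, Slope (τ i) := fun i => by
    rw [funext (hτσ i)]
    exact ⟨(hσ i).cont.comp (by fun_prop), fun s a ha => by
      rw [← add_assoc]; exact (hσ i).lo _ a ha, fun s a ha => by
      rw [← add_assoc]; exact (hσ i).hi _ a ha⟩
  have hτ0 : ∀ i, τ i 0 = 0 := fun i => by
    by_cases h : col i = c
    · simp [τ, h, e, slope_eq hM h]
    · simp [τ, h]
  have hstep : ∀ w : StepSeed d J K, stepOut col c x m e w (fun n => (V (samplePoint col c x m w n),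
      gradient V (samplePoint col c x m w n))) = upd col c (m + (output id w fun n =>
      (sumPot τ (query id w n), gradient (sumPot τ) (query id w n))).ofLp) x := fun w => by
    simp only [stepOut]
    refine congrArg (fun v : Space d => upd col c (m + v.ofLp) x) ?_
    simp only [output]
    refine congrArg (glue id) (funext fun i => congrArg (pick (w i)) (funext fun j =>
      funext fun k => congrArg (res id i) ?_))
    rw [gradient_sumPot hτ]
    refine congrArg _ (funext fun l => ?_)
    by_cases h : col l = c
    · simp [τ, h, samplePoint, slope_eq hM h, e]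
    · simp [τ, h]
  have hG : Test fun z : Space d => g (upd col c (m + z.ofLp) x) :=
    ⟨hg.meas.comp ((continuous_upd col c).comp (f := fun z : Space d => (m + z.ofLp, x))
      (by fun_prop)).measurable, fun _ => hg.nonneg _, fun _ => hg.le_one _⟩
  have h1 := sumPot_sampler hτ hτ0 (J := J) (K := K) hδ0 hδ hK hL hJ hG
  have h2 : ∀ p : Fin d → ℝ, upd col c (m + p) x = upd col c (m₀ + p) x := fun p => by
    ext i; by_cases h : col i = c <;> simp [m₀, h]
  simp only [h2] at h1
  rw [site_translate hσ hτ m₀ hτσ fun s => g (upd col c s x)] at h1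
  have h3 : |∫ s, g (upd col c s x) ∂(Measure.pi fun i => siteLaw (σ i)) - kern V col c g x|
      ≤ perturbConst * (d * β) := by
    refine (site_perturb hσ (fun i => slope_cond hM c x i)
      (c := fun _ => β) (fun i t => ?_) (test_comp_upd hg col c x)).trans
      (le_of_eq (by simp))
    by_cases h : col i = c
    · simp only [σ, condSlope, if_pos h]
      simpa [abs_sub_comm, e] using hβ i h
    · simp only [σ, condSlope, if_neg h, sub_self, abs_zero]; exact hβ0
  refine (abs_sub_le _ _ _).trans (add_le_add ?_ h3)
  refine le_of_eq_of_le ?_ h1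
  simp only [hstep, h2]

/-- **One colour step against exact resampling.** -/
theorem step_close (hM : Model V col) (c : Fin χ) {G J K : ℕ} {L δ : ℝ} (hδ0 : 0 ≤ δ)
    (hδ : δ ≤ 1 / 4) (hK : Real.exp (3 * L) ≤ δ * 2 ^ K) (hL : 2 ^ 1 * Real.exp (-L / 4) ≤ δ)
    (hJ : Real.exp (-((J : ℝ) / 2 ^ (1 + 1))) ≤ δ) {g : Space d → ℝ} (hg : Test g) (x : Space d) :
    |stepKern V col G J K c g x - kern V col c g x|
      ≤ 3 * d * δ + perturbConst * (d * ((1 / 3) ^ G * (2 * ‖x‖))) := by
  exact step_close_at hM c hδ0 hδ hK hL hJ hg x (descend V col c x G) (by positivity)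
    fun i h => descend_small hM c x i h G

end

end P347
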