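import Vale.Agent.P347.Local.Machine

/-!
# P347: potentials with a coloured interaction graph need a cubed logarithm of queries
-/

namespace P347

open MeasureTheory Finset
open scoped BigOperators RealInnerProductSpace

noncomputable section

theorem poly_log {d : ℕ} (hd : 2 ≤ d) (k m : ℕ) {a : ℝ} (ha : 0 < a)
    (h : a ≤ 2 ^ k * (d : ℝ) ^ m) : Real.log a ≤ (k : ℝ) * Real.log 2 + m * Real.log d := by
  have : (0 : ℝ) < d := by exact_mod_cast (show 0 < d by omega)
  refine (Real.log_le_log ha h).trans (le_of_eq ?_)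
  rw [Real.log_mul (by positivity) (by positivity), Real.log_pow, Real.log_pow]

theorem perturbConst_le : perturbConst ≤ 512 := by
  have h1 : Real.exp 4 = Real.exp 1 ^ 4 := by rw [← Real.exp_nat_mul]; norm_num
  have h2 : Real.exp 1 ^ 4 ≤ (2.7182818286 : ℝ) ^ 4 :=
    pow_le_pow_left₀ (Real.exp_nonneg _) Real.exp_one_lt_d9.le 4
  unfold perturbConst
  norm_num at h2
  linarith

theorem one_le_perturbConst : 1 ≤ perturbConst := by
  unfold perturbConst; linarith [Real.add_one_le_exp (4 : ℝ)]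

/-- The radius of the ball. -/
theorem ball_parameter (d : ℕ) (hd : 2 ≤ d) :
    ∃ L : ℝ, 0 ≤ L ∧ L + 1 ≤ 5000000 * d ∧ ballTail d L ≤ 1 / (1000000 * d) := by
  have hdR : (2 : ℝ) ≤ d := by exact_mod_cast hd
  refine ⟨4 * ((d : ℝ) + 1000000 * d), by positivity, by linarith, ?_⟩
  unfold ballTail
  have h2 : (2 : ℝ) ^ d ≤ Real.exp d := by
    rw [← Real.exp_one_pow]
    exact pow_le_pow_left₀ two_pos.le (by linarith [Real.add_one_le_exp (1 : ℝ)]) d
  refine (mul_le_mul_of_nonneg_right h2 (Real.exp_nonneg _)).trans ?_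
  rw [← Real.exp_add,
    show (d : ℝ) + -(4 * ((d : ℝ) + 1000000 * d)) / 4 = -(1000000 * d) by ring, Real.exp_neg,
    one_div]
  exact inv_anti₀ (by positivity) (by linarith [Real.add_one_le_exp (1000000 * (d : ℝ))])

/-- The number of sweeps. -/
theorem sweep_parameter (d : ℕ) (hd : 2 ≤ d) (L : ℝ) (hL0 : 0 ≤ L) (hL1 : L + 1 ≤ 5000000 * d) :
    ∃ R : ℕ, smoothConst d * Real.sqrt (7 / 8) ^ R * (L + 1) ≤ 1 / 100 ∧
      (R : ℝ) ≤ 754 * Real.log d ∧ (R : ℝ) ≤ 285 * d := by
  have hdR : (2 : ℝ) ≤ d := by exact_mod_cast hd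
  have hl2 : Real.log 2 ≤ Real.log d := Real.log_le_log two_pos hdR
  have hldd : Real.log d ≤ d := (Real.log_le_sub_one_of_pos (by linarith)).trans (by linarith)
  have hP := perturbConst_le
  have hP1 := one_le_perturbConst
  set A := 100 * smoothConst d * (L + 1) with hA
  have hs1 : 1 ≤ smoothConst d := by unfold smoothConst; nlinarith
  have hs2 : smoothConst d ≤ 24576 * d := by unfold smoothConst; nlinarith
  have hA1 : 1 ≤ A := by
    calc (1 : ℝ) ≤ 100 * 1 * 1 := by norm_num
      _ ≤ A := mul_le_mul (mul_le_mul_of_nonneg_left hs1 (by norm_num)) (by linarith) zero_le_one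
          (by linarith)
  have hA2 : A ≤ 2 ^ 45 * (d : ℝ) ^ 2 := by
    calc A ≤ 100 * (24576 * d) * (5000000 * d) :=
          mul_le_mul (mul_le_mul_of_nonneg_left hs2 (by norm_num)) hL1 (by linarith)
            (by positivity)
      _ ≤ _ := by nlinarith
  have hlogA := poly_log hd 45 2 (by linarith) hA2
  push_cast at hlogA
  have hlogA0 : 0 ≤ Real.log A := Real.log_nonneg hA1
  refine ⟨⌈16 * Real.log A⌉₊, ?_, ?_, ?_⟩
  · set R := ⌈16 * Real.log A⌉₊
    have h1 : Real.sqrt (7 / 8) ≤ Real.exp (-(1 / 16)) := by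
      rw [Real.sqrt_le_iff]
      refine ⟨Real.exp_nonneg _, ?_⟩
      rw [← Real.exp_nat_mul]
      have := Real.add_one_le_exp ((2 : ℕ) * (-(1 / 16) : ℝ))
      push_cast at this ⊢
      linarith
    have h2 : Real.sqrt (7 / 8) ^ R ≤ 1 / A := by
      refine (pow_le_pow_left₀ (Real.sqrt_nonneg _) h1 R).trans ?_
      rw [← Real.exp_nat_mul]
      refine le_of_le_of_eq (Real.exp_le_exp.2 (show _ ≤ -Real.log A by
        linarith [Nat.le_ceil (16 * Real.log A)])) ?_
      rw [Real.exp_neg, Real.exp_log (by linarith), one_div]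
    calc smoothConst d * Real.sqrt (7 / 8) ^ R * (L + 1)
        ≤ smoothConst d * (1 / A) * (L + 1) :=
          mul_le_mul_of_nonneg_right (mul_le_mul_of_nonneg_left h2 (by linarith)) (by linarith)
      _ = 1 / 100 := by
          have : smoothConst d ≠ 0 := by linarith
          have : L + 1 ≠ 0 := by linarith
          rw [hA]
          field_simp
  · have := (Nat.ceil_lt_add_one (show 0 ≤ 16 * Real.log A by positivity)).le
    linarith [Real.log_two_gt_d9]
  · have := (Nat.ceil_lt_add_one (show 0 ≤ 16 * Real.log A by positivity)).le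
    linarith [Real.log_two_lt_d9]

/-- The number of descent steps. -/
theorem descent_parameter (d : ℕ) (hd : 2 ≤ d) (n r : ℝ) (hn : 1 ≤ n) (hnd : n ≤ 2300 * d)
    (hr : 1 ≤ r) (hr2 : r ≤ 600 * (2300 * d) * (5000000 * d)) :
    ∃ G : ℕ, n * (perturbConst * (d * ((1 / 3) ^ G * (2 * r)))) ≤ 1 / 200 ∧
      (G : ℝ) ≤ 86 * Real.log d := by
  have hdR : (2 : ℝ) ≤ d := by exact_mod_cast hd
  have hl2 : Real.log 2 ≤ Real.log d := Real.log_le_log two_pos hdR
  have hP := perturbConst_le
  have hP1 := one_le_perturbConst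
  set B := 400 * n * perturbConst * d * r with hB
  have hB1 : 1 ≤ B := by
    calc (1 : ℝ) ≤ 400 * 1 * 1 * 2 * 1 := by norm_num
      _ ≤ B := by rw [hB]; gcongr
  have hB2 : B ≤ 2 ^ 80 * (d : ℝ) ^ 4 := by
    calc B ≤ 400 * (2300 * d) * 512 * d * (600 * (2300 * d) * (5000000 * d)) := by
          rw [hB]; gcongr
      _ ≤ _ := by
          rw [show (400 : ℝ) * (2300 * d) * 512 * d * (600 * (2300 * d) * (5000000 * d))
            = 400 * 2300 * 512 * 600 * 2300 * 5000000 * (d : ℝ) ^ 4 by ring]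
          gcongr
          norm_num
  have hlogB := poly_log hd 80 4 (by linarith) hB2
  push_cast at hlogB
  have hlogB0 : 0 ≤ Real.log B := Real.log_nonneg hB1
  refine ⟨⌈Real.log B⌉₊, ?_, ?_⟩
  · set G := ⌈Real.log B⌉₊
    have h1 : (1 : ℝ) / 3 ≤ Real.exp (-1) := by
      rw [Real.exp_neg, one_div]
      exact inv_anti₀ (Real.exp_pos 1) Real.exp_one_lt_three.le
    have hG3 : ((1 : ℝ) / 3) ^ G ≤ 1 / B := by
      refine (pow_le_pow_left₀ (by norm_num) h1 G).trans ?_
      rw [← Real.exp_nat_mul]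
      refine le_of_le_of_eq (Real.exp_le_exp.2 (show _ ≤ -Real.log B by
        linarith [Nat.le_ceil (Real.log B)])) ?_
      rw [Real.exp_neg, Real.exp_log (by linarith), one_div]
    calc n * (perturbConst * (d * ((1 / 3) ^ G * (2 * r))))
        ≤ n * (perturbConst * (d * (1 / B * (2 * r)))) := by gcongr
      _ = 1 / 200 := by rw [hB]; field_simp; norm_num
  · have := (Nat.ceil_lt_add_one hlogB0).le
    linarith [Real.log_two_gt_d9]

/-- The lengths of the site samplers. -/
theorem sampler_parameter (d : ℕ) (hd : 2 ≤ d) (n : ℝ) (hn : 1 ≤ n) (hnd : n ≤ 2300 * d) :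
    ∃ J K : ℕ, ∃ L₀ : ℝ, Real.exp (3 * L₀) ≤ 1 / (600 * d * n) * 2 ^ K ∧
      2 ^ 1 * Real.exp (-L₀ / 4) ≤ 1 / (600 * d * n) ∧
      Real.exp (-((J : ℝ) / 2 ^ (1 + 1))) ≤ 1 / (600 * d * n) ∧
      (J : ℝ) * K ≤ 43240 * Real.log d ^ 2 := by
  have hdR : (2 : ℝ) ≤ d := by exact_mod_cast hd
  have hl2 : Real.log 2 ≤ Real.log d := Real.log_le_log two_pos hdR
  have hl2' : 0.69 ≤ Real.log 2 := by linarith [Real.log_two_gt_d9]
  set δ : ℝ := 1 / (600 * d * n) with hδdef
  set ℓ := Real.log (600 * d * n) with hℓ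
  have hℓ0 : 0 ≤ ℓ := Real.log_nonneg (by nlinarith)
  have hℓle := poly_log hd 21 2 (show 0 < 600 * (d : ℝ) * n by positivity) (by nlinarith)
  push_cast at hℓle
  rw [← hℓ] at hℓle
  have hδexp : Real.exp (-ℓ) = δ := by
    rw [Real.exp_neg, Real.exp_log (by positivity), hδdef, one_div]
  set L₀ := 4 * (Real.log 2 + ℓ) with hL₀
  set K := ⌈(3 * L₀ + ℓ) / Real.log 2⌉₊ with hKdef
  set J := ⌈4 * ℓ⌉₊
  have hKb : (K : ℝ) ≤ 460 * Real.log d := by
    have h1 : (K : ℝ) < (3 * L₀ + ℓ) / Real.log 2 + 1 := Nat.ceil_lt_add_one (by positivity)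
    have h2 : (3 * L₀ + ℓ) / Real.log 2 ≤ 458 * Real.log d := by
      rw [div_le_iff₀ (by linarith)]
      have : 458 * Real.log d * 0.69 ≤ 458 * Real.log d * Real.log 2 :=
        mul_le_mul_of_nonneg_left hl2' (by linarith)
      linarith
    linarith
  have hJb : (J : ℝ) ≤ 94 * Real.log d := by
    have h1 : (J : ℝ) < 4 * ℓ + 1 := Nat.ceil_lt_add_one (by positivity)
    linarith
  refine ⟨J, K, L₀, ?_, ?_, ?_, ?_⟩
  · rw [← hδexp, ← Real.exp_log (two_pos : (0 : ℝ) < 2), ← Real.exp_nat_mul, ← Real.exp_add,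
      Real.exp_le_exp]
    have := (div_le_iff₀ (by linarith : (0 : ℝ) < Real.log 2)).1
      (Nat.le_ceil ((3 * L₀ + ℓ) / Real.log 2))
    rw [← hKdef] at this
    linarith
  · refine le_of_eq ?_
    rw [pow_one, ← hδexp, ← Real.exp_log (two_pos : (0 : ℝ) < 2), ← Real.exp_add]
    congr 1
    rw [hL₀]
    ring
  · rw [← hδexp, Real.exp_le_exp, neg_le_neg_iff, le_div_iff₀ (by positivity)]
    norm_num
    linarith [Nat.le_ceil (4 * ℓ)]
  · calc (J : ℝ) * K ≤ 94 * Real.log d * (460 * Real.log d) :=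
          mul_le_mul hJb hKb (Nat.cast_nonneg K) (by linarith)
      _ = _ := by ring

/-- The parameters: lengths and accuracies. -/
theorem local_parameters (d : ℕ) (hd : 2 ≤ d) :
    ∃ R G J K : ℕ, ∃ δ L₀ L r : ℝ,
      ((8 * (R + 1) * stepLength G J K : ℕ) : ℝ) ≤ 300000000 * Real.log d ^ 3 ∧
      0 ≤ δ ∧ δ ≤ 1 / 4 ∧ Real.exp (3 * L₀) ≤ δ * 2 ^ K ∧ 2 ^ 1 * Real.exp (-L₀ / 4) ≤ δ ∧
      Real.exp (-((J : ℝ) / 2 ^ (1 + 1))) ≤ δ ∧ 0 ≤ L ∧ 0 < r ∧
      3 * d * δ + perturbConst * (d * ((1 / 3) ^ G * (2 * r))) ≤ 1 ∧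
      ((8 * (R + 1) : ℕ) : ℝ)
          * (3 * d * δ + perturbConst * (d * ((1 / 3) ^ G * (2 * r))) + 6 / r * (L + 1)
            + 3 * ballTail d L) + 3 * ballTail d L
        + smoothConst d * Real.sqrt (7 / 8) ^ R * (L + 1) ≤ 1 / 10 := by
  have hdR : (2 : ℝ) ≤ d := by exact_mod_cast hd
  have hld : 0.69 ≤ Real.log d := by
    linarith [Real.log_two_gt_d9, Real.log_le_log two_pos hdR]
  obtain ⟨L, hL0, hL1, htail⟩ := ball_parameter d hd
  obtain ⟨R, hmix, hR, hRd⟩ := sweep_parameter d hd L hL0 hL1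
  set n : ℝ := ((8 * (R + 1) : ℕ) : ℝ) with hn
  have hne : n = 8 * ((R : ℝ) + 1) := by rw [hn]; push_cast; ring
  have hn1 : 1 ≤ n := by linarith [Nat.cast_nonneg (α := ℝ) R]
  have hnd : n ≤ 2300 * d := by linarith
  set r := 600 * n * (L + 1) with hr
  have hr1 : 1 ≤ r := by rw [hr]; nlinarith
  obtain ⟨G, hdesc, hG⟩ := descent_parameter d hd n r hn1 hnd hr1 (by rw [hr]; gcongr)
  obtain ⟨J, K, L₀, hK, hL₀, hJ, hJK⟩ := sampler_parameter d hd n hn1 hnd
  refine ⟨R, G, J, K, 1 / (600 * d * n), L₀, L, r, ?_, by positivity, ?_, hK, hL₀, hJ, hL0,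
    by linarith, ?_⟩
  · push_cast [stepLength]
    have hQ : (G : ℝ) + J * K + 2 ≤ 43400 * Real.log d ^ 2 := by
      have hsq : 0.69 * Real.log d ≤ Real.log d ^ 2 := by
        rw [sq]; exact mul_le_mul_of_nonneg_right hld (by linarith)
      linarith
    calc (8 : ℝ) * (R + 1) * (G + J * K + 2) ≤ 6100 * Real.log d * (43400 * Real.log d ^ 2) :=
          mul_le_mul (by linarith) hQ (by positivity) (by linarith)
      _ ≤ _ := by nlinarith [pow_nonneg (show 0 ≤ Real.log d by linarith) 3]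
  · gcongr; nlinarith
  · set E := 3 * d * (1 / (600 * d * n)) + perturbConst * (d * ((1 / 3) ^ G * (2 * r))) with hE
    have hE0 : 0 ≤ E := by
      have := one_le_perturbConst
      positivity
    have e1 : n * (3 * d * (1 / (600 * d * n))) = 1 / 200 := by field_simp; norm_num
    have e3 : n * (6 / r * (L + 1)) = 1 / 100 := by rw [hr]; field_simp; norm_num
    have e4 : n * (3 * ballTail d L) + 3 * ballTail d L ≤ 3 / 100 := by
      calc n * (3 * ballTail d L) + 3 * ballTail d L = (3 * n + 3) * ballTail d L := by ring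
        _ ≤ (3 * n + 3) * (1 / (1000000 * d)) := mul_le_mul_of_nonneg_left htail (by linarith)
        _ ≤ 3 / 100 := by rw [← mul_div_assoc, mul_one, div_le_iff₀ (by positivity)]; linarith
    have hEn : n * E ≤ 1 / 100 := by rw [hE, mul_add]; linarith
    refine ⟨?_, ?_⟩
    · calc E ≤ n * E := le_mul_of_one_le_left hE0 hn1
        _ ≤ 1 := by linarith
    · rw [mul_add, mul_add]
      linarith

/-- **Cubed logarithm for coloured interaction graphs.** -/
theorem local_targets :
    ∃ C : ℝ, ∀ d : ℕ, 2 ≤ d → ∀ col : Fin d → Fin 8,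
      ∃ q : ℕ, (q : ℝ) ≤ C * Real.log d ^ 3 ∧
        ∃ (Ω : Type) (_ : MeasurableSpace Ω) (P : Measure Ω) (M : Type) (_ : MeasurableSpace M)
          (init : M) (query : Ω → M → EuclideanSpace ℝ (Fin d))
          (update : Ω → M → ℝ × EuclideanSpace ℝ (Fin d) → M) (out : M → EuclideanSpace ℝ (Fin d)),
          StandardBorelSpace Ω ∧ IsProbabilityMeasure P ∧ Measurable (Function.uncurry query) ∧
          Measurable (fun z : (Ω × (ℝ × EuclideanSpace ℝ (Fin d))) × M => update z.1.1 z.2 z.1.2) ∧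
          Measurable out ∧
          ∀ V : EuclideanSpace ℝ (Fin d) → ℝ, ContDiff ℝ 2 V → V 0 = 0 → gradient V 0 = 0 →
            (∀ x h, ‖h‖ ^ 2 ≤ iteratedFDeriv ℝ 2 V x ![h, h] ∧
              iteratedFDeriv ℝ 2 V x ![h, h] ≤ 2 * ‖h‖ ^ 2) →
            (∀ x i k, i ≠ k → col i = col k → iteratedFDeriv ℝ 2 V x
              ![EuclideanSpace.single i 1, EuclideanSpace.single k 1] = 0) →
            ∀ S : Set (EuclideanSpace ℝ (Fin d)), MeasurableSet S →
              |(P.map fun ω => out ((fun s =>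
                  update ω s (V (query ω s), gradient V (query ω s)))^[q] init)).real S
                - (∫ x in S, Real.exp (-V x)) / ∫ x, Real.exp (-V x)| ≤ 1 / 10 := by
  refine ⟨300000000, fun d hd col => ?_⟩
  obtain ⟨R, G, J, K, δ, L₀, L, r, hq, hδ0, hδ, hK, hL₀, hJ, hL, hr, hE1, hsum⟩ :=
    local_parameters d hd
  set T := 8 * R + 7
  have hT : T + 1 = 8 * (R + 1) := by omega
  refine ⟨(T + 1) * stepLength G J K, by rw [hT]; exact_mod_cast hq,
    RunSeed d T J K, inferInstance, Measure.pi fun _ => stepLaw d J K,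
    Memory d (J * K), inferInstance, (0, 0, 0, 0, fun _ => 0), nextQuery col G,
    nextMemory col G, fun s => s.2.1, ?_, inferInstance, measurable_nextQuery col G,
    measurable_nextMemory col G, by fun_prop, fun V hV h0 hg hH hcol S hS => ?_⟩
  · have : StandardBorelSpace (StepSeed d J K) := standardBorel_omega id J K
    exact StandardBorelSpace.pi_countable
  have hM := model_of_hessian hV h0 hg hH hcol
  have hmeas : Measurable fun ω : RunSeed d T J K => foldSteps col G V (T + 1) ω 0 :=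
    (measurable_foldSteps hM (T + 1)).comp (f := fun ω : RunSeed d T J K => (ω, (0 : Space d)))
      (measurable_id.prodMk measurable_const)
  have hsame : (fun ω : RunSeed d T J K => ((fun s => nextMemory col G ω s
      (V (nextQuery col G ω s), gradient V (nextQuery col G ω s)))^[(T + 1) * stepLength G J K]
        (0, 0, 0, 0, fun _ => 0)).2.1) = fun ω => foldSteps col G V (T + 1) ω 0 :=
    funext fun ω => interact_run (col := col) (V := V) ω _ rfl rfl rfl
  rw [hsame, ← real_gibbs hM.block hS]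
  have hh : Test (S.indicator fun _ : Space d => (1 : ℝ)) :=
    ⟨measurable_const.indicator hS, fun x => Set.indicator_nonneg (fun _ _ => zero_le_one) x,
      fun x => Set.indicator_le_self' (fun _ _ => zero_le_one) x⟩
  have e1 : ((Measure.pi fun _ : Fin (T + 1) => stepLaw d J K).map fun ω =>
      foldSteps col G V (T + 1) ω 0).real S
      = approxRun (stepKern V col G J K) (T + 1) (S.indicator fun _ => (1 : ℝ)) 0 := by
    rw [← integral_foldSteps hM hh, ← integral_map hmeas.aemeasurable hh.meas.aestronglyMeasurable,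
      integral_indicator_const _ hS, smul_eq_mul, mul_one]
  have e2 : (gibbs V).real S = ∫ x, S.indicator (fun _ : Space d => (1 : ℝ)) x ∂gibbs V := by
    rw [integral_indicator_const _ hS, smul_eq_mul, mul_one]
  rw [e1, e2, hT]
  have hc0 : 0 ≤ perturbConst := by unfold perturbConst; positivity
  refine (chain_close hM (stepKern V col G J K) (fun c g hg => test_stepKern hM G J K c hg)
    (δ := 3 * d * δ + perturbConst * (d * ((1 / 3) ^ G * (2 * r)))) (r := r) (L := L)
    (by positivity) hE1 hr hL (fun c g hg x => ?_) hh R).trans hsum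
  by_cases hx : r ≤ ‖x‖
  · have hfar : far r x = 1 := min_eq_left ((one_le_div hr).2 hx)
    have a := test_stepKern hM G J K c hg
    have b := test_kern hM c hg
    have : 0 ≤ 3 * d * δ + perturbConst * (d * ((1 / 3) ^ G * (2 * r))) := by positivity
    rw [hfar, abs_le]
    constructor <;> linarith [a.nonneg x, a.le_one x, b.nonneg x, b.le_one x]
  · refine (step_close hM c hδ0 hδ hK hL₀ hJ hg x).trans ?_
    have := (test_far (d := d) hr).nonneg x
    have h2 : perturbConst * (d * ((1 / 3) ^ G * (2 * ‖x‖)))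
        ≤ perturbConst * (d * ((1 / 3) ^ G * (2 * r))) := by gcongr; linarith [not_le.1 hx]
    linarith

end

end P347
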