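import Vale.Agent.P347.Split

/-!
# P347: potentials with a coloured interaction graph

The facts used about the Hessian: it is between one and two, so the gradient minus three halves of
the identity is half-Lipschitz, and coordinates of one colour do not interact.
-/

namespace P347

open MeasureTheory Finset
open scoped BigOperators RealInnerProductSpace

noncomputable section

variable {d χ : ℕ}

/-- The state space. -/
abbrev Space (d : ℕ) : Type := EuclideanSpace ℝ (Fin d)

/-- A potential of the coloured class, through its gradient. -/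
structure Model (V : Space d → ℝ) (col : Fin d → Fin χ) : Prop where
  diff : Differentiable ℝ V
  block : Block V (gradient V)
  mono : ∀ z v, ‖v‖ ^ 2 ≤ ⟪gradient V (z + v) - gradient V z, v⟫
  cross : ∀ z v, ‖gradient V (z + v) - gradient V z - (3 / 2 : ℝ) • v‖ ≤ 1 / 2 * ‖v‖
  indep : ∀ x y i, x i = y i → (∀ k, col k ≠ col i → x k = y k) → gradient V x i = gradient V y i

section Hessian

variable {V : Space d → ℝ}

/-- The Hessian minus three halves of the identity has norm at most one half. -/
theorem cross_bilinear (hV : ContDiff ℝ 2 V)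
    (hH : ∀ x h : Space d, ‖h‖ ^ 2 ≤ iteratedFDeriv ℝ 2 V x ![h, h] ∧
      iteratedFDeriv ℝ 2 V x ![h, h] ≤ 2 * ‖h‖ ^ 2) (x v w : Space d) :
    fderiv ℝ (fderiv ℝ V) x v w - 3 / 2 * ⟪v, w⟫ ≤ 1 / 2 * (‖v‖ * ‖w‖) := by
  set B := fderiv ℝ (fderiv ℝ V) x with hB
  have hsymm : B v w = B w v :=
    (hV.contDiffAt.isSymmSndFDerivAt (by simp)).eq v w
  have hq : ∀ a, ‖a‖ ^ 2 ≤ B a a ∧ B a a ≤ 2 * ‖a‖ ^ 2 := fun a => by
    simpa [iteratedFDeriv_two_apply] using hH x a
  rcases eq_or_ne v 0 with hv | hv
  · simp [hv]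
  rcases eq_or_ne w 0 with hw | hw
  · simp [hw]
  have hvp : 0 < ‖v‖ := norm_pos_iff.2 hv
  have hwp : 0 < ‖w‖ := norm_pos_iff.2 hw
  have h1 := (hq (‖w‖ • v + ‖v‖ • w)).2
  have h2 := (hq (‖w‖ • v - ‖v‖ • w)).1
  simp only [norm_add_sq_real, norm_sub_sq_real, norm_smul, Real.norm_eq_abs, abs_norm,
    real_inner_smul_left, real_inner_smul_right, map_add, map_sub, map_smul,
    ContinuousLinearMap.add_apply, ContinuousLinearMap.sub_apply,
    ContinuousLinearMap.smul_apply, smul_eq_mul] at h1 h2
  rw [← hsymm] at h1 h2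
  nlinarith [mul_pos hvp hwp]

theorem gradient_diff_inner (hV : ContDiff ℝ 2 V) (z v w : Space d) (α : ℝ) :
    ∃ c : Space d, ⟪gradient V (z + v) - gradient V z, w⟫ - α
      = fderiv ℝ (fderiv ℝ V) c v w - α := by
  have hdd : Differentiable ℝ (fderiv ℝ V) :=
    (hV.fderiv_right (m := 1) (by norm_num)).differentiable (by norm_num)
  have hl : ∀ t : ℝ, HasDerivAt (fun t : ℝ => fderiv ℝ V (z + t • v) w)
      (fderiv ℝ (fderiv ℝ V) (z + t • v) v w) t := fun t => by
    have g0 : HasDerivAt (fun s : ℝ => z + s • v) v t := by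
      simpa only [one_smul, id_eq] using ((hasDerivAt_id t).smul_const v).const_add z
    have g1 : HasDerivAt (fun s : ℝ => fderiv ℝ V (z + s • v))
        (fderiv ℝ (fderiv ℝ V) (z + t • v) v) t :=
      HasFDerivAt.comp_hasDerivAt (l := fderiv ℝ V) (f := fun s : ℝ => z + s • v) t
        (hdd (z + t • v)).hasFDerivAt g0
    simpa only [map_zero, zero_add, add_zero] using g1.clm_apply (hasDerivAt_const t w)
  obtain ⟨t, -, ht⟩ := exists_hasDerivAt_eq_slope (f := fun t : ℝ => fderiv ℝ V (z + t • v) w)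
    (f' := fun t => fderiv ℝ (fderiv ℝ V) (z + t • v) v w) (a := 0) (b := 1) one_pos
    (fun t _ => (hl t).continuousAt.continuousWithinAt) fun t _ => hl t
  refine ⟨z + t • v, ?_⟩
  simp only [one_smul, zero_smul, add_zero, sub_zero, div_one] at ht
  rw [ht, inner_sub_left, inner_gradient, inner_gradient]

theorem model_of_hessian {col : Fin d → Fin χ} (hV : ContDiff ℝ 2 V) (h0 : V 0 = 0)
    (hg : gradient V 0 = 0)
    (hH : ∀ x h : Space d, ‖h‖ ^ 2 ≤ iteratedFDeriv ℝ 2 V x ![h, h] ∧
      iteratedFDeriv ℝ 2 V x ![h, h] ≤ 2 * ‖h‖ ^ 2)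
    (hcol : ∀ x i k, i ≠ k → col i = col k →
      iteratedFDeriv ℝ 2 V x ![EuclideanSpace.single i 1, EuclideanSpace.single k 1] = 0) :
    Model V col := by
  refine ⟨hV.differentiable (by norm_num), block_of_hessian hV h0 hg hH, fun z v => ?_,
    fun z v => ?_, fun x y i hi hk => ?_⟩
  · obtain ⟨c, hc⟩ := gradient_diff_inner hV z v v 0
    have := (hH c v).1
    simp [iteratedFDeriv_two_apply] at this
    linarith
  · set w := gradient V (z + v) - gradient V z - (3 / 2 : ℝ) • v with hw
    obtain ⟨c, hc⟩ := gradient_diff_inner hV z v w (3 / 2 * ⟪v, w⟫)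
    have h1 := cross_bilinear hV hH c v w
    have h2 : ⟪w, w⟫ = ‖w‖ * ‖w‖ := real_inner_self_eq_norm_mul_norm w
    rw [show ⟪w, w⟫ = ⟪gradient V (z + v) - gradient V z, w⟫ - 3 / 2 * ⟪v, w⟫ by
      conv_lhs => rw [hw, inner_sub_left, real_inner_smul_left]] at h2
    rcases (norm_nonneg w).eq_or_lt with h | h
    · rw [← h]; positivity
    · exact le_of_mul_le_mul_right (by linarith) h
  · obtain ⟨c, hc⟩ := gradient_diff_inner hV x (y - x) (EuclideanSpace.single i (1 : ℝ)) 0
    rw [add_sub_cancel, inner_sub_left, EuclideanSpace.inner_single_right,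
      EuclideanSpace.inner_single_right] at hc
    have hz : fderiv ℝ (fderiv ℝ V) c (y - x) (EuclideanSpace.single i (1 : ℝ)) = 0 := by
      have e := (EuclideanSpace.basisFun (Fin d) ℝ).sum_repr (y - x)
      simp only [EuclideanSpace.basisFun_apply, EuclideanSpace.basisFun_repr] at e
      rw [← e]
      simp only [map_sum, map_smul, ContinuousLinearMap.sum_apply, ContinuousLinearMap.smul_apply]
      refine sum_eq_zero fun k _ => ?_
      by_cases h1 : k = i
      · subst h1; simp [hi]
      by_cases h2 : col k = col i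
      · have := hcol c k i h1 h2
        simp [iteratedFDeriv_two_apply] at this
        simp [this]
      · simp [hk k h2]
    rw [hz] at hc
    simp at hc
    linarith

end Hessian

/-- The gradient is two-Lipschitz. -/
theorem Model.lip {V : Space d → ℝ} {col : Fin d → Fin χ} (h : Model V col) (z v : Space d) :
    ‖gradient V (z + v) - gradient V z‖ ≤ 2 * ‖v‖ := by
  have h1 := h.cross z v
  have h2 := norm_add_le (gradient V (z + v) - gradient V z - (3 / 2 : ℝ) • v) ((3 / 2 : ℝ) • v)
  rw [sub_add_cancel, norm_smul, Real.norm_eq_abs, abs_of_pos (by norm_num : (0 : ℝ) < 3 / 2)] at h2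
  linarith

end

end P347
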