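import Vale.Agent.P347.Local.Site

/-!
# P347: products of site laws

A product of site laws has the product density, and changing every slope by at most `c i` moves the
expectation of a test function with values in `[0, 1]` by at most a constant times the sum of `c`.
-/

namespace P347

open MeasureTheory Finset
open scoped BigOperators

noncomputable section

variable {ι : Type} [Fintype ι]

/-- A test function. -/
structure Test {α : Type} [MeasurableSpace α] (h : α → ℝ) : Prop where
  meas : Measurable h
  nonneg : ∀ x, 0 ≤ h x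
  le_one : ∀ x, h x ≤ 1

theorem Test.norm_le {α : Type} [MeasurableSpace α] {h : α → ℝ} (hh : Test h) (x : α) :
    ‖h x‖ ≤ 1 := by
  rw [Real.norm_eq_abs, abs_le]; constructor <;> linarith [hh.nonneg x, hh.le_one x]

theorem Test.integrable {α : Type} [MeasurableSpace α] {h : α → ℝ} (hh : Test h) (μ : Measure α)
    [IsFiniteMeasure μ] : Integrable h μ :=
  Integrable.of_bound hh.meas.aestronglyMeasurable 1 (Filter.Eventually.of_forall hh.norm_le)

theorem Test.integral_mem {α : Type} [MeasurableSpace α] {h : α → ℝ} (hh : Test h) (μ : Measure α)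
    [IsProbabilityMeasure μ] : 0 ≤ ∫ x, h x ∂μ ∧ ∫ x, h x ∂μ ≤ 1 := by
  refine ⟨integral_nonneg hh.nonneg, ?_⟩
  have := integral_mono (hh.integrable μ) (integrable_const 1) hh.le_one
  simpa using this

theorem pi_density {ρ : ι → ℝ → ℝ} (h0 : ∀ i t, 0 ≤ ρ i t) (hi : ∀ i, Integrable (ρ i)) :
    Measure.pi (fun i => volume.withDensity fun t => ENNReal.ofReal (ρ i t))
      = (volume : Measure (ι → ℝ)).withDensity fun s => ENNReal.ofReal (∏ i, ρ i (s i)) := by
  have : ∀ i, SigmaFinite (volume.withDensity fun t => ENNReal.ofReal (ρ i t)) := fun i =>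
    SigmaFinite.withDensity_ofReal _
  refine Measure.pi_eq fun s hs => ?_
  rw [withDensity_apply _ (MeasurableSet.univ_pi hs), volume_pi, Measure.restrict_pi_pi,
    ← ofReal_integral_eq_lintegral_ofReal
      (f := fun y : ι → ℝ => ∏ i, ρ i (y i))
      (Integrable.fintype_prod fun i => (hi i).restrict)
      (Filter.Eventually.of_forall fun y => prod_nonneg fun i _ => h0 i (y i)),
    integral_fintype_prod_eq_prod (f := ρ),
    ENNReal.ofReal_prod_of_nonneg fun i _ => setIntegral_nonneg (hs i) fun y _ => h0 i y]
  refine prod_congr rfl fun i _ => ?_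
  rw [withDensity_apply _ (hs i),
    ofReal_integral_eq_lintegral_ofReal (hi i).integrableOn (Filter.Eventually.of_forall (h0 i))]

theorem pi_siteLaw {D : ι → ℝ → ℝ} (hD : ∀ i, Slope (D i)) :
    Measure.pi (fun i => siteLaw (D i))
      = (volume : Measure (ι → ℝ)).withDensity
          fun s => ENNReal.ofReal (∏ i, siteDensity (D i) (s i)) :=
  pi_density (fun i t => ((hD i).density_pos t).le) fun i => (hD i).integrable_density

theorem integral_pi_site {D : ι → ℝ → ℝ} (hD : ∀ i, Slope (D i)) (h : (ι → ℝ) → ℝ) :
    ∫ s, h s ∂Measure.pi (fun i => siteLaw (D i))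
      = ∫ s, (∏ i, siteDensity (D i) (s i)) * h s := by
  have hm : Measurable fun s : ι → ℝ => ∏ i, siteDensity (D i) (s i) :=
    (continuous_finsetProd _ fun i _ => ((Real.continuous_exp.comp
      ((hD i).continuous_pot.comp (continuous_apply i)).neg).div_const _)).measurable
  rw [pi_siteLaw hD, integral_withDensity_eq_integral_toReal_smul₀
    hm.ennreal_ofReal.aemeasurable (Filter.Eventually.of_forall fun s => ENNReal.ofReal_lt_top)]
  refine integral_congr_ae (Filter.Eventually.of_forall fun s => ?_)
  simp [ENNReal.toReal_ofReal (prod_nonneg fun i _ => ((hD i).density_pos (s i)).le)]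

theorem abs_prod_sub_one (s : Finset ι) (f : ι → ℝ) :
    |∏ i ∈ s, f i - 1| ≤ ∏ i ∈ s, (1 + |f i - 1|) - 1 := by
  classical
  induction s using Finset.induction_on with
  | empty => simp
  | @insert a s ha ih =>
    rw [prod_insert ha, prod_insert ha]
    have h1 : f a * ∏ i ∈ s, f i - 1
        = f a * (∏ i ∈ s, f i - 1) + (f a - 1) := by ring
    have h2 : |f a| ≤ 1 + |f a - 1| := by
      calc |f a| = |(f a - 1) + 1| := by ring_nf
        _ ≤ _ := by rw [add_comm (1 : ℝ)]; exact (abs_add_le _ _).trans (by rw [abs_one])
    rw [h1]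
    calc _ ≤ |f a * (∏ i ∈ s, f i - 1)| + |f a - 1| := abs_add_le _ _
      _ ≤ (1 + |f a - 1|) * (∏ i ∈ s, (1 + |f i - 1|) - 1) + |f a - 1| := by
          rw [abs_mul]
          exact add_le_add (mul_le_mul h2 ih (abs_nonneg _) (by positivity)) le_rfl
      _ = _ := by ring

/-- The constant of the perturbation bound. -/
def perturbConst : ℝ := 4 * (2 * Real.exp 4)

/-- **Perturbation of product site laws.** -/
theorem site_perturb {D D' : ι → ℝ → ℝ} (hD : ∀ i, Slope (D i)) (hD' : ∀ i, Slope (D' i))
    {c : ι → ℝ} (hc : ∀ i s, |D i s - D' i s| ≤ c i) {h : (ι → ℝ) → ℝ} (hh : Test h) :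
    |∫ s, h s ∂Measure.pi (fun i => siteLaw (D i))
        - ∫ s, h s ∂Measure.pi (fun i => siteLaw (D' i))| ≤ perturbConst * ∑ i, c i := by
  have : ∀ i, IsProbabilityMeasure (siteLaw (D i)) := fun i => (hD i).isProbability
  have : ∀ i, IsProbabilityMeasure (siteLaw (D' i)) := fun i => (hD' i).isProbability
  have hc0 : ∀ i, 0 ≤ c i := fun i => (abs_nonneg _).trans (hc i 0)
  have hK : 1 ≤ 2 * Real.exp 4 := by linarith [Real.add_one_le_exp (4 : ℝ)]
  obtain ⟨m0, m1⟩ := hh.integral_mem (Measure.pi fun i => siteLaw (D i))
  obtain ⟨n0, n1⟩ := hh.integral_mem (Measure.pi fun i => siteLaw (D' i))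
  by_cases hbig : 1 ≤ 2 * Real.exp 4 * ∑ i, c i
  · unfold perturbConst
    rw [abs_le]
    constructor <;> nlinarith
  replace hbig := (not_le.1 hbig).le
  have hci : ∀ i, c i ≤ 1 := fun i => by
    nlinarith [single_le_sum (fun j _ => hc0 j) (mem_univ i)]
  -- the likelihood ratio at one site, normalised at the zero of the slope
  choose r hr using fun i => (hD i).exists_eq 0
  set g := fun i t => pot (D' i) t - pot (D i) t with hg
  set f := fun i t => Real.exp (-(g i t - g i (r i))) with hf
  have hgl : ∀ i t, |g i t - g i (r i)| ≤ c i * |t - r i| := fun i t => by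
    have hd : ∀ x, HasDerivAt (g i) (D' i x - D i x) x := fun x =>
      ((hD' i).hasDerivAt x).sub ((hD i).hasDerivAt x)
    rw [← intervalIntegral.integral_eq_sub_of_hasDerivAt (fun x _ => hd x)
      (((hD' i).cont.sub (hD i).cont).intervalIntegrable _ _)]
    exact intervalIntegral.norm_integral_le_of_norm_le_const (C := c i) fun x _ => by
      rw [Real.norm_eq_abs, abs_sub_comm]; exact hc i x
  set p := fun i t => siteDensity (D i) t with hp
  have hcont : ∀ i, Continuous (p i) := fun i =>
    (Real.continuous_exp.comp (hD i).continuous_pot.neg).div_const _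
  have hfc : ∀ i, Continuous (f i) := fun i => Real.continuous_exp.comp
    (((hD' i).continuous_pot.sub (hD i).continuous_pot).sub continuous_const).neg
  -- one site
  have hone : ∀ i, Integrable (fun t => p i t * f i t) ∧
      ∫ t, p i t * |f i t - 1| ≤ 2 * Real.exp 4 * c i := fun i => by
    have hblock := (hD i).block (hr i)
    set Z := ∫ s, Real.exp (-pot (D i) s)
    have hZ : 0 < Z := (hD i).integral_pos
    set w := fun s : ℝ => Real.exp (-(1 / 4) * ‖s‖ ^ 2) with hw
    have hwi : Integrable w := integrable_gauss (by norm_num)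
    set k := Real.exp (-pot (D i) (r i)) / Z * Real.exp 4
    have hk : 0 ≤ k := by positivity
    have hbound : ∀ t, p i t * |f i t - 1| ≤ c i * (k * w (t - r i)) := fun t => by
      obtain ⟨hb, -⟩ := hblock.bounds (t - r i)
      simp only [add_sub_cancel, Real.norm_eq_abs, sq_abs] at hb
      set s := |t - r i| with hs
      have hs0 : 0 ≤ s := abs_nonneg _
      have hsq : (t - r i) ^ 2 = s ^ 2 := (sq_abs _).symm
      have h1 : |f i t - 1| ≤ c i * s * Real.exp s := by
        refine le_trans ?_ (mul_le_mul (hgl i t)
          (Real.exp_le_exp.2 (((hgl i t).trans (mul_le_of_le_one_left hs0 (hci i)))))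
          (Real.exp_nonneg _) (mul_nonneg (hc0 i) hs0))
        simp only [hf]
        set a := -(g i t - g i (r i)) with ha
        rw [show |g i t - g i (r i)| = |a| by rw [ha, abs_neg]]
        rcases le_total 0 a with h | h
        · rw [abs_of_nonneg h, abs_of_nonneg (by linarith [Real.one_le_exp h])]
          have h1 := Real.add_one_le_exp (-a)
          have h2 : Real.exp a * Real.exp (-a) = 1 := by rw [← Real.exp_add]; simp
          nlinarith [Real.exp_pos a]
        · rw [abs_of_nonpos h, abs_of_nonpos (by linarith [Real.exp_le_one_iff.2 h])]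
          nlinarith [Real.add_one_le_exp a, Real.one_le_exp (neg_nonneg.2 h)]
      have h2 : s * Real.exp s ≤ Real.exp (2 * s) := by
        rw [two_mul, Real.exp_add]
        exact mul_le_mul_of_nonneg_right (by linarith [Real.add_one_le_exp s]) (Real.exp_nonneg s)
      calc p i t * |f i t - 1| ≤ p i t * (c i * Real.exp (2 * s)) := by
            refine mul_le_mul_of_nonneg_left (h1.trans ?_) ((hD i).density_pos t).le
            rw [mul_assoc]
            exact mul_le_mul_of_nonneg_left h2 (hc0 i)
        _ = c i * (Real.exp (-pot (D i) t + 2 * s) / Z) := by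
            rw [Real.exp_add]; simp only [hp, siteDensity]; ring
        _ ≤ c i * (Real.exp (-pot (D i) (r i) + (4 - 1 / 4 * s ^ 2)) / Z) := by
            refine mul_le_mul_of_nonneg_left (div_le_div_of_nonneg_right
              (Real.exp_le_exp.2 ?_) hZ.le) (hc0 i)
            nlinarith [sq_nonneg (s / 2 - 2)]
        _ = _ := by
            simp only [hw, k, Real.norm_eq_abs, ← hs, sub_eq_add_neg (4 : ℝ), Real.exp_add]
            ring_nf
    have hmaj : Integrable fun t => c i * (k * w (t - r i)) :=
      ((hwi.comp_sub_right (r i)).const_mul k).const_mul _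
    have habs : Integrable fun t => p i t * |f i t - 1| :=
      hmaj.mono' ((hcont i).mul ((hfc i).sub continuous_const).abs).aestronglyMeasurable
        (Filter.Eventually.of_forall fun t => by
          rw [Real.norm_eq_abs, abs_of_nonneg (mul_nonneg ((hD i).density_pos t).le (abs_nonneg _))]
          exact hbound t)
    refine ⟨((hD i).integrable_density.add habs).mono'
      ((hcont i).mul (hfc i)).aestronglyMeasurable (Filter.Eventually.of_forall fun t => ?_), ?_⟩
    · have hp0 := ((hD i).density_pos t).le
      have : f i t ≤ 1 + |f i t - 1| := by linarith [le_abs_self (f i t - 1)]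
      rw [Real.norm_eq_abs, abs_of_nonneg (mul_nonneg hp0 (Real.exp_nonneg _))]
      calc p i t * f i t ≤ p i t * (1 + |f i t - 1|) := mul_le_mul_of_nonneg_left this hp0
        _ = _ := by simp [hp]; ring
    · refine (integral_mono habs hmaj hbound).trans ?_
      have e1 : ∫ t, w (t - r i) = 2 * Real.sqrt Real.pi := by
        rw [integral_sub_right_eq_self w, hw, GaussianFourier.integral_rexp_neg_mul_sq_norm
          (by norm_num), Module.finrank_self, Nat.cast_one, ← Real.sqrt_eq_rpow,
          show Real.pi / (1 / 4) = 2 ^ 2 * Real.pi by ring, Real.sqrt_mul (by positivity),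
          Real.sqrt_sq (by norm_num)]
      have e2 : Real.exp (-pot (D i) (r i)) * Real.sqrt Real.pi ≤ Z := by
        have e3 : ∫ t, Real.exp (-pot (D i) (r i)) * Real.exp (-1 * ‖t - r i‖ ^ 2)
            = Real.exp (-pot (D i) (r i)) * Real.sqrt Real.pi := by
          rw [integral_const_mul, integral_sub_right_eq_self fun t : ℝ => Real.exp (-1 * ‖t‖ ^ 2),
            GaussianFourier.integral_rexp_neg_mul_sq_norm one_pos, Module.finrank_self, div_one,
            Nat.cast_one, ← Real.sqrt_eq_rpow]
        rw [← e3]
        refine integral_mono (((integrable_gauss one_pos).comp_sub_right (r i)).const_mul _)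
          (hD i).integrable fun t => ?_
        rw [← Real.exp_add, Real.exp_le_exp]
        have := (hblock.bounds (t - r i)).2
        simp only [add_sub_cancel] at this
        linarith
      rw [integral_const_mul, integral_const_mul, e1, mul_comm (2 * Real.exp 4)]
      refine mul_le_mul_of_nonneg_left ?_ (hc0 i)
      simp only [k]
      rw [div_mul_eq_mul_div, div_mul_eq_mul_div, div_le_iff₀ hZ]
      nlinarith [Real.exp_pos 4]
  -- products
  set E := fun i => ∫ t, p i t * |f i t - 1|
  have hp1 : ∀ i, ∫ t, p i t = 1 := fun i => (hD i).integral_density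
  have habsi : ∀ i, Integrable fun t => p i t * (1 + |f i t - 1|) := fun i => by
    refine (((hD i).integrable_density.add ((hone i).1.sub (hD i).integrable_density).abs)).congr
      (Filter.Eventually.of_forall fun t => ?_)
    simp only [Pi.add_apply, Pi.sub_apply, hp]
    rw [mul_add, mul_one, ← mul_sub_one, abs_mul, abs_of_pos ((hD i).density_pos t)]
  set A := fun k : (ι → ℝ) → ℝ => ∫ s, (∏ i, p i (s i)) * k s
  set G := fun s : ι → ℝ => ∏ i, f i (s i)
  have hη : ∀ k : (ι → ℝ) → ℝ, Test k → |A (fun s => G s * k s) - A k|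
      ≤ 4 * Real.exp 4 * ∑ i, c i := fun k hk => by
    have hG : Measurable G := (continuous_finsetProd _ fun i _ =>
      (hfc i).comp (continuous_apply i)).measurable
    have hP : Measurable fun s : ι → ℝ => ∏ i, p i (s i) := (continuous_finsetProd _ fun i _ =>
      (hcont i).comp (continuous_apply i)).measurable
    have hP0 : ∀ s : ι → ℝ, 0 ≤ ∏ i, p i (s i) := fun s =>
      prod_nonneg fun i _ => ((hD i).density_pos _).le
    have i1 : Integrable fun s : ι → ℝ => ∏ i, p i (s i) :=
      Integrable.fintype_prod fun i => (hD i).integrable_density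
    have i2 : Integrable fun s : ι → ℝ => (∏ i, p i (s i)) * (G s) := by
      refine (Integrable.fintype_prod (f := fun i t => p i t * f i t) fun i => (hone i).1).congr
        (Filter.Eventually.of_forall fun s => prod_mul_distrib)
    have i3 : Integrable fun s : ι → ℝ => (∏ i, p i (s i)) * ∏ i, (1 + |f i (s i) - 1|) := by
      refine (Integrable.fintype_prod (f := fun i t => p i t * (1 + |f i t - 1|)) habsi).congr
        (Filter.Eventually.of_forall fun s => prod_mul_distrib)
    have i4 : Integrable fun s : ι → ℝ => (∏ i, p i (s i)) * (G s * k s) := by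
      refine i2.mono' (hP.mul (hG.mul hk.meas)).aestronglyMeasurable
        (Filter.Eventually.of_forall fun s => ?_)
      have hG0 : 0 ≤ G s := prod_nonneg fun i _ => Real.exp_nonneg _
      rw [Real.norm_eq_abs, abs_of_nonneg (mul_nonneg (hP0 s) (mul_nonneg hG0 (hk.nonneg s)))]
      exact mul_le_mul_of_nonneg_left (mul_le_of_le_one_right hG0 (hk.le_one s)) (hP0 s)
    have i5 : Integrable fun s : ι → ℝ => (∏ i, p i (s i)) * k s := by
      refine i1.mono' (hP.mul hk.meas).aestronglyMeasurable (Filter.Eventually.of_forall fun s => ?_)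
      rw [Real.norm_eq_abs, abs_of_nonneg (mul_nonneg (hP0 s) (hk.nonneg s))]
      exact mul_le_of_le_one_right (hP0 s) (hk.le_one s)
    have eP : ∫ s : ι → ℝ, ∏ i, p i (s i) = 1 := by
      rw [integral_fintype_prod_volume_eq_prod, prod_congr rfl fun i _ => hp1 i, prod_const_one]
    have e3 : ∫ s : ι → ℝ, (∏ i, p i (s i)) * ∏ i, (1 + |f i (s i) - 1|) = ∏ i, (1 + E i) := by
      simp only [← prod_mul_distrib]
      rw [integral_fintype_prod_volume_eq_prod (f := fun i t => p i t * (1 + |f i t - 1|))]
      refine prod_congr rfl fun i _ => ?_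
      simp only [mul_add, mul_one]
      rw [integral_add (hD i).integrable_density, hp1 i]
      exact ((habsi i).sub (hD i).integrable_density).congr
        (Filter.Eventually.of_forall fun t => by simp [hp]; ring_nf)
    calc |A (fun s => G s * k s) - A k|
        = |∫ s : ι → ℝ, ((∏ i, p i (s i)) * (G s * k s) - (∏ i, p i (s i)) * k s)| := by
          simp only [A]; rw [integral_sub i4 i5]
      _ ≤ ∫ s : ι → ℝ, ((∏ i, p i (s i)) * (∏ i, (1 + |f i (s i) - 1|)) - ∏ i, p i (s i)) := by
          refine abs_integral_le_integral_abs.trans (integral_mono (i4.sub i5).abs (i3.sub i1)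
            fun s => ?_)
          have h1 := abs_prod_sub_one univ fun i => f i (s i)
          rw [show (∏ i, p i (s i)) * (G s * k s) - (∏ i, p i (s i)) * k s
              = (∏ i, p i (s i)) * ((G s - 1) * k s) by ring, abs_mul, abs_of_nonneg (hP0 s),
            abs_mul, abs_of_nonneg (hk.nonneg s)]
          calc _ ≤ (∏ i, p i (s i)) * (∏ i, (1 + |f i (s i) - 1|) - 1) := by
                refine mul_le_mul_of_nonneg_left ?_ (hP0 s)
                exact (mul_le_of_le_one_right (abs_nonneg _) (hk.le_one s)).trans h1
            _ = _ := by ring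
      _ = ∏ i, (1 + E i) - 1 := by rw [integral_sub i3 i1, e3, eP]
      _ ≤ Real.exp (2 * Real.exp 4 * ∑ i, c i) - 1 := by
          refine sub_le_sub_right ?_ 1
          rw [mul_sum, Real.exp_sum]
          refine prod_le_prod (fun i _ => ?_) fun i _ => ?_
          · have : 0 ≤ E i := integral_nonneg fun t =>
              mul_nonneg ((hD i).density_pos t).le (abs_nonneg _)
            linarith
          · linarith [(hone i).2, Real.add_one_le_exp (2 * Real.exp 4 * c i)]
      _ ≤ _ := by
          have hx0 : 0 ≤ 2 * Real.exp 4 * ∑ i, c i := by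
            have := sum_nonneg (s := univ) fun i _ => hc0 i
            positivity
          have := Real.abs_exp_sub_one_le (x := 2 * Real.exp 4 * ∑ i, c i)
            (by rwa [abs_of_nonneg hx0])
          rw [abs_of_nonneg hx0] at this
          linarith [le_abs_self (Real.exp (2 * Real.exp 4 * ∑ i, c i) - 1)]
  -- the tilted product is a multiple of the second law
  set M := A (fun s => G s * 1)
  have htest1 : Test fun _ : ι → ℝ => (1 : ℝ) :=
    ⟨measurable_const, fun _ => zero_le_one, fun _ => le_rfl⟩
  have eM : A (fun s => G s * h s) = M * ∫ s, h s ∂Measure.pi (fun i => siteLaw (D' i)) := by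
    set q := fun i => Real.exp (g i (r i))
      * (∫ s, Real.exp (-pot (D' i) s)) / ∫ s, Real.exp (-pot (D i) s) with hq
    have e : ∀ s : ι → ℝ,
        (∏ i, p i (s i)) * G s = (∏ i, q i) * ∏ i, siteDensity (D' i) (s i) := by
      intro s
      simp only [G, ← prod_mul_distrib]
      refine prod_congr rfl fun i _ => ?_
      have := (hD i).integral_pos
      have := (hD' i).integral_pos
      have key : Real.exp (-pot (D i) (s i)) * f i (s i)
          = Real.exp (g i (r i)) * Real.exp (-pot (D' i) (s i)) := by
        simp only [hf, hg, ← Real.exp_add]; congr 1; ring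
      simp only [hp, hq, siteDensity]
      rw [div_mul_eq_mul_div, key]
      field_simp
    have e' : ∀ k : (ι → ℝ) → ℝ, A (fun s => G s * k s)
        = (∏ i, q i) * ∫ s, k s ∂Measure.pi (fun i => siteLaw (D' i)) := fun k => by
      rw [integral_pi_site hD', ← integral_const_mul]
      refine integral_congr_ae (Filter.Eventually.of_forall fun s => ?_)
      simp only
      rw [← mul_assoc, e s, mul_assoc]
    rw [e' h, show M = ∏ i, q i by simp [M, e' fun _ => 1]]
  have h1 := hη h hh
  have h2 := hη _ htest1
  rw [eM] at h1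
  rw [integral_pi_site hD h]
  have eA : A (fun _ => (1 : ℝ)) = 1 := by
    simp only [A, mul_one]
    rw [integral_fintype_prod_volume_eq_prod, prod_congr rfl fun i _ => hp1 i, prod_const_one]
  rw [eA] at h2
  rw [abs_le] at h1 h2 ⊢
  unfold perturbConst
  have hS : 0 ≤ 4 * Real.exp 4 * ∑ i, c i := by
    have := sum_nonneg (s := univ) fun i _ => hc0 i
    positivity
  have hA : A h = ∫ s, (∏ i, siteDensity (D i) (s i)) * h s := rfl
  rw [← hA]
  constructor <;> nlinarith

end

end P347
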