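import Vale.Agent.P347.Local.Kernel

/-!
# P347: contraction and smoothing of the coloured resampling chain

Eight steps smooth a test function in total variation, every further sweep multiplies its Lipschitz
constant by the square root of seven eighths, and an approximate sampler of each colour accumulates
only the sum of its errors.
-/

namespace P347

open MeasureTheory Finset
open scoped BigOperators RealInnerProductSpace

noncomputable section

variable {d : ℕ} {V : Space d → ℝ} {col : Fin d → Fin 8}

/-- The colour used at a step. -/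
def colour (n : ℕ) : Fin 8 := ⟨n % 8, Nat.mod_lt _ (by norm_num)⟩

/-- Several steps of the chain, on test functions. -/
def run (V : Space d → ℝ) (col : Fin d → Fin 8) : ℕ → (Space d → ℝ) → Space d → ℝ
  | 0, h => h
  | n + 1, h => kern V col (colour n) (run V col n h)

theorem test_run (hM : Model V col) {h : Space d → ℝ} (hh : Test h) :
    ∀ n, Test (run V col n h)
  | 0 => hh
  | n + 1 => test_kern hM _ (test_run hM hh n)

theorem run_invariant (hM : Model V col) {h : Space d → ℝ} (hh : Test h) :
    ∀ n, ∫ x, run V col n h x ∂gibbs V = ∫ x, h x ∂gibbs V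
  | 0 => rfl
  | n + 1 => by
    rw [show run V col (n + 1) h = kern V col (colour n) (run V col n h) from rfl,
      kern_invariant hM _ (test_run hM hh n), run_invariant hM hh n]

theorem norm_le_of_coords {a b : Space d} (h : ∀ k, |a k| ≤ |b k|) : ‖a‖ ≤ ‖b‖ := by
  refine le_of_pow_le_pow_left₀ two_ne_zero (norm_nonneg _) ?_
  rw [EuclideanSpace.norm_sq_eq, EuclideanSpace.norm_sq_eq]
  exact sum_le_sum fun k _ => by
    simp only [Real.norm_eq_abs]
    exact pow_le_pow_left₀ (abs_nonneg _) (h k) 2

theorem slope_lipschitz {χ : ℕ} {col : Fin d → Fin χ} (hM : Model V col) (c : Fin χ) (x x' : Space d) (i : Fin d) (t : ℝ) :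
    |condSlope V col c x i t - condSlope V col c x' i t| ≤ 2 * ‖x - x'‖ := by
  unfold condSlope
  by_cases hi : col i = c
  · simp only [if_pos hi, slopeAt]
    set P : Space d := WithLp.toLp 2 fun k => if col k = col i then t else x k
    set P' : Space d := WithLp.toLp 2 fun k => if col k = col i then t else x' k
    have h1 := PiLp.norm_apply_le (gradient V (P' + (P - P')) - gradient V P') i
    have h2 := hM.lip P' (P - P')
    rw [add_sub_cancel] at h1 h2
    have h3 : ‖P - P'‖ ≤ ‖x - x'‖ := norm_le_of_coords fun k => by
      by_cases hk : col k = col i <;> simp [P, P', hk]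
    rw [Real.norm_eq_abs, WithLp.ofLp_sub, Pi.sub_apply] at h1
    linarith
  · simp only [if_neg hi, sub_self, abs_zero]; positivity

/-- Coordinates that are all overwritten by the next steps stop to matter in total variation. -/
theorem run_smooth (hM : Model V col) {h : Space d → ℝ} (hh : Test h) :
    ∀ n, n ≤ 8 → ∀ x x' : Space d, (∀ k, n ≤ (col k : ℕ) → x k = x' k) →
      |run V col n h x - run V col n h x'| ≤ n * (perturbConst * (2 * d)) * ‖x - x'‖
  | 0, _, x, x', hag => by
    rw [show x = x' from PiLp.ext fun k => hag k (Nat.zero_le _)]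
    simp
  | n + 1, hn, x, x', hag => by
    set g := run V col n h
    have hg : Test g := test_run hM hh n
    have hcn : (colour n : ℕ) = n := Nat.mod_eq_of_lt (by omega)
    set c := colour n
    have := condLaw_prob hM c x'
    have h1 := site_perturb (fun i => slope_cond hM c x i) (fun i => slope_cond hM c x' i)
      (c := fun _ => 2 * ‖x - x'‖) (fun i t => slope_lipschitz hM c x x' i t)
      (test_comp_upd hg col c x)
    have h2 : |∫ s, g (upd col c s x) ∂condLaw V col c x'
        - ∫ s, g (upd col c s x') ∂condLaw V col c x'|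
        ≤ n * (perturbConst * (2 * d)) * ‖x - x'‖ := by
      rw [← integral_sub ((test_comp_upd hg col c x).integrable _)
        ((test_comp_upd hg col c x').integrable _), ← Real.norm_eq_abs]
      refine (norm_integral_le_of_norm_le_const (Filter.Eventually.of_forall fun s => ?_)).trans
        (le_of_eq (by rw [probReal_univ, mul_one]))
      refine (run_smooth hM hh n (by omega) _ _ fun k hk => ?_).trans
        (mul_le_mul_of_nonneg_left (norm_le_of_coords fun k => ?_)
          (mul_nonneg n.cast_nonneg (mul_nonneg (by unfold perturbConst; positivity) (by positivity))))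
      · by_cases hkc : col k = c
        · simp [hkc]
        · have : (col k : ℕ) ≠ n := fun e => hkc (Fin.ext (by omega))
          simp [hkc, hag k (by omega)]
      · by_cases hkc : col k = c <;> simp [hkc]
    simp only [sum_const, card_univ, Fintype.card_fin, nsmul_eq_mul] at h1
    refine (abs_sub_le (∫ s, g (upd col c s x) ∂condLaw V col c x)
      (∫ s, g (upd col c s x) ∂condLaw V col c x')
      (∫ s, g (upd col c s x') ∂condLaw V col c x')).trans ?_
    calc _ ≤ perturbConst * ((d : ℝ) * (2 * ‖x - x'‖))
          + n * (perturbConst * (2 * d)) * ‖x - x'‖ := add_le_add h1 h2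
      _ = _ := by push_cast; ring

/-- Lipschitz in the largest colour distance, with the first `j` colours weighted by `7 / 8`. -/
def LipAt (col : Fin d → Fin 8) (j : ℕ) (K : ℝ) (g : Space d → ℝ) : Prop :=
  ∀ x x' : Space d, ∀ B : ℝ, 0 ≤ B →
    (∀ c : Fin 8, 7 / 8 * colSq col c (x' - x).ofLp ≤ B ^ 2) →
    (∀ c : Fin 8, j ≤ (c : ℕ) → colSq col c (x' - x).ofLp ≤ B ^ 2) → |g x' - g x| ≤ K * B

/-- One resampled colour under the quantile coupling. -/
theorem kern_coupled (hM : Model V col) (c : Fin 8) {g : Space d → ℝ} (hg : Test g) (x x' : Space d)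
    {C M : ℝ} (hM' : ∀ c', c' ≠ c → colSq col c' (x' - x).ofLp ≤ M)
    (hC : ∀ y y' : Space d, colSq col c (y' - y).ofLp ≤ 7 / 8 * M →
      (∀ c', c' ≠ c → colSq col c' (y' - y).ofLp = colSq col c' (x' - x).ofLp) →
      |g y' - g y| ≤ C) :
    |kern V col c g x' - kern V col c g x| ≤ C := by
  rw [kern_quantile hM c hg, kern_quantile hM c hg]
  set q := fun (y : Space d) (u : Fin d → ℝ) i => quantile (siteLaw (condSlope V col c y i)) (u i)
  have hint : ∀ y, Integrable (fun u => g (upd col c (q y u) y))
      (Measure.pi fun _ : Fin d => openUnif) := fun y =>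
    Test.integrable ⟨(test_comp_upd hg col c y).meas.comp (measurable_pi_lambda _ fun i =>
      (measurable_quantile _).comp (measurable_pi_apply i)), fun _ => hg.nonneg _,
      fun _ => hg.le_one _⟩ _
  rw [← integral_sub (hint x') (hint x), ← Real.norm_eq_abs]
  refine (norm_integral_le_of_norm_le_const (C := C) ?_).trans
    (le_of_eq (by rw [probReal_univ, mul_one]))
  filter_upwards [openUnif_ae d] with u hu
  rw [Real.norm_eq_abs]
  refine hC _ _ ?_ fun c' hc' => sum_congr rfl fun i hi => by
    have : col i ≠ c := (mem_filter.1 hi).2 ▸ hc'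
    simp [this]
  have h0 : colSq col c (upd col c (q x' u) x' - upd col c (q x u) x).ofLp
      = colSq col c (fun i => q x' u i - q x u i) :=
    sum_congr rfl fun i hi => by simp [(mem_filter.1 hi).2]
  have h1 := quantile_coupling hM c x x' hu
  have h2 : ‖x' - x‖ ^ 2 - colSq col c (x' - x).ofLp ≤ 7 * M := by
    rw [← sum_colSq col, ← add_sum_erase _ _ (mem_univ c), add_sub_cancel_left]
    refine (sum_le_card_nsmul _ _ M fun c' hc' => hM' c' (ne_of_mem_erase hc')).trans
      (le_of_eq ?_)
    rw [card_erase_of_mem (mem_univ c), card_univ, Fintype.card_fin, nsmul_eq_mul]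
    norm_num
  rw [h0]
  simp only [q]
  linarith

theorem LipAt.kern_step (hM : Model V col) {j : ℕ} {K : ℝ} {g : Space d → ℝ}
    (hg : Test g) (hl : LipAt col j K g) (hj : j < 8) :
    LipAt col (j + 1) K (kern V col ⟨j, hj⟩ g) := by
  intro x x' B hB h78 hge
  set c : Fin 8 := ⟨j, hj⟩
  refine kern_coupled hM c hg x x' (M := 8 / 7 * B ^ 2) (fun c' _ => by linarith [h78 c'])
    fun y y' hy hyo => hl y y' B hB (fun c' => ?_) fun c' hc' => ?_
  · by_cases h : c' = c
    · have : 0 ≤ colSq col c (y' - y).ofLp := sum_nonneg fun i _ => sq_nonneg _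
      rw [h]; linarith
    · rw [hyo c' h]; exact h78 c'
  · by_cases h : c' = c
    · rw [h]; linarith
    · rw [hyo c' h]
      exact hge c' (by
        have : (c' : ℕ) ≠ j := fun e => h (Fin.ext e)
        omega)

/-- After eight weighted steps the constant drops. -/
theorem LipAt.drop {K : ℝ} {g : Space d → ℝ} (hl : LipAt col 8 K g) :
    LipAt col 0 (K * Real.sqrt (7 / 8)) g := by
  intro x x' B hB _ hge
  rw [mul_assoc]
  refine hl x x' _ (by positivity) (fun c => ?_) fun c hc => absurd hc (by omega)
  rw [mul_pow, Real.sq_sqrt (by norm_num)]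
  exact mul_le_mul_of_nonneg_left (hge c (Nat.zero_le _)) (by norm_num)

theorem norm_le_three {x : Space d} {B : ℝ} (hB : 0 ≤ B)
    (h : ∀ c, colSq col c x.ofLp ≤ B ^ 2) : ‖x‖ ≤ 3 * B := by
  refine le_of_pow_le_pow_left₀ two_ne_zero (by positivity) ?_
  rw [← sum_colSq col]
  refine (sum_le_card_nsmul _ _ (B ^ 2) fun c _ => h c).trans ?_
  simp
  nlinarith

/-- The Lipschitz constant after one smoothing sweep. -/
def smoothConst (d : ℕ) : ℝ := 24 * (perturbConst * (2 * d))

theorem smoothConst_nonneg (d : ℕ) : 0 ≤ smoothConst d := by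
  unfold smoothConst perturbConst; positivity

theorem run_contract (hM : Model V col) {h : Space d → ℝ} (hh : Test h) :
    ∀ k, LipAt col 0 (smoothConst d * Real.sqrt (7 / 8) ^ k) (run V col (8 * (k + 1)) h)
  | 0 => by
    intro x x' B hB _ hge
    have h1 := run_smooth hM hh 8 le_rfl x' x fun k hk => absurd hk (by omega)
    refine h1.trans ?_
    have := norm_le_three (x := x' - x) hB fun c => hge c (Nat.zero_le _)
    calc _ ≤ ((8 : ℕ) : ℝ) * (perturbConst * (2 * d)) * (3 * B) :=
          mul_le_mul_of_nonneg_left this (by unfold perturbConst; positivity)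
      _ = _ := by unfold smoothConst; push_cast; ring
  | k + 1 => by
    set K := smoothConst d * Real.sqrt (7 / 8) ^ k with hKdef
    have hK : 0 ≤ K := mul_nonneg (smoothConst_nonneg d) (by positivity)
    have hstep : ∀ j, j ≤ 8 → LipAt col j K (run V col (8 * (k + 1) + j) h) := by
      intro j
      induction j with
      | zero => exact fun _ => run_contract hM hh k
      | succ j ih =>
        intro hj
        rw [← Nat.add_assoc]
        have he : colour (8 * (k + 1) + j) = ⟨j, by omega⟩ := Fin.ext (by simp [colour]; omega)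
        show LipAt col (j + 1) K (kern V col (colour _) _)
        rw [he]
        exact (ih (by omega)).kern_step hM (test_run hM hh _) _
    have := (hstep 8 le_rfl).drop
    rw [pow_succ, ← mul_assoc, show 8 * (k + 1 + 1) = 8 * (k + 1) + 8 by ring]
    exact this

theorem LipAt.kern_any (hM : Model V col) {K : ℝ} {g : Space d → ℝ} (hg : Test g)
    (hl : LipAt col 0 K g) (c : Fin 8) : LipAt col 0 K (kern V col c g) := by
  intro x x' B hB _ hge
  refine kern_coupled hM c hg x x' (M := B ^ 2) (fun c' _ => hge c' (Nat.zero_le _))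
    fun y y' hy hyo => ?_
  have hall : ∀ c', colSq col c' (y' - y).ofLp ≤ B ^ 2 := fun c' => by
    by_cases h : c' = c
    · rw [h]; linarith [sq_nonneg B]
    · rw [hyo c' h]; exact hge c' (Nat.zero_le _)
  exact hl y y' B hB (fun c' => by
    have : 0 ≤ colSq col c' (y' - y).ofLp := sum_nonneg fun i _ => sq_nonneg _
    linarith [hall c']) fun c' _ => hall c'

/-- The Gibbs mass outside a ball. -/
def ballTail (d : ℕ) (L : ℝ) : ℝ := 2 ^ d * Real.exp (-L / 4)

theorem ball_compl (hM : Model V col) (L : ℝ) :
    (gibbs V).real (ballSet (Space d) L)ᶜ ≤ ballTail d L := by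
  have : IsProbabilityMeasure (gibbs V) := ⟨gibbs_univ hM.block⟩
  rw [probReal_compl_eq_one_sub (measurableSet_ballSet L)]
  have := gibbs_ball hM.block (b := d) (le_of_eq finrank_euclideanSpace_fin) L
  unfold ballTail
  linarith

/-- A Lipschitz function at zero is close to its Gibbs mean. -/
theorem mix_at_zero (hM : Model V col) {g : Space d → ℝ} (hg : Test g) {K L : ℝ} (hK : 0 ≤ K)
    (hL : 0 ≤ L) (hl : LipAt col 0 K g) :
    |g 0 - ∫ x, g x ∂gibbs V| ≤ K * (L + 1) + ballTail d L := by
  have : IsProbabilityMeasure (gibbs V) := ⟨gibbs_univ hM.block⟩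
  have hm := measurableSet_ballSet (E := Space d) L
  have hbd : ∀ x, |g 0 - g x| ≤ K * (L + 1) + (ballSet (Space d) L)ᶜ.indicator 1 x := by
    intro x
    by_cases hx : x ∈ ballSet (Space d) L
    · rw [Set.indicator_of_notMem (by simpa using hx), add_zero]
      have hcol : ∀ c, colSq col c (0 - x).ofLp ≤ (L + 1) ^ 2 := fun c => by
        refine (colSq_le col c _).trans ?_
        rw [zero_sub, norm_neg]
        have : ‖x‖ ^ 2 ≤ L := hx
        nlinarith
      exact hl x 0 (L + 1) (by linarith) (fun c => by
        have : 0 ≤ colSq col c (0 - x).ofLp := sum_nonneg fun i _ => sq_nonneg _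
        linarith [hcol c]) fun c _ => hcol c
    · rw [Set.indicator_of_mem (by simpa using hx), Pi.one_apply]
      have : 0 ≤ K * (L + 1) := by positivity
      rw [abs_le]
      constructor <;> linarith [hg.nonneg 0, hg.le_one 0, hg.nonneg x, hg.le_one x]
  calc |g 0 - ∫ x, g x ∂gibbs V| = |∫ x, (g 0 - g x) ∂gibbs V| := by
        rw [integral_sub (integrable_const _) (hg.integrable _)]; simp
    _ ≤ ∫ x, (K * (L + 1) + (ballSet (Space d) L)ᶜ.indicator 1 x) ∂gibbs V :=
        abs_integral_le_integral_abs.trans (integral_mono ((integrable_const _).sub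
          (hg.integrable _)).abs ((integrable_const _).add ((integrable_const 1).indicator hm.compl))
          hbd)
    _ = K * (L + 1) + (gibbs V).real (ballSet (Space d) L)ᶜ := by
        rw [show (fun x : Space d => K * (L + 1) + (ballSet (Space d) L)ᶜ.indicator 1 x)
            = fun x => K * (L + 1) + (ballSet (Space d) L)ᶜ.indicator (fun _ => (1 : ℝ)) x from rfl,
          integral_add (integrable_const _) ((integrable_const (1 : ℝ)).indicator hm.compl),
          integral_indicator_const _ hm.compl]
        simp
    _ ≤ _ := by linarith [ball_compl hM L]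

/-- The chance of being far out, as a test function. -/
def far (r : ℝ) (x : Space d) : ℝ := min 1 (‖x‖ / r)

theorem test_far {r : ℝ} (hr : 0 < r) : Test (far (d := d) r) :=
  ⟨(by unfold far; fun_prop : Continuous (far (d := d) r)).measurable,
    fun x => le_min zero_le_one (by positivity), fun x => min_le_left _ _⟩

theorem lipAt_far {r : ℝ} (hr : 0 < r) : LipAt col 0 (3 / r) (far (d := d) r) := by
  intro x x' B hB _ hge
  have h3 := norm_le_three (x := x' - x) hB fun c => hge c (Nat.zero_le _)
  refine (abs_min_sub_min_le_max _ _ _ _).trans ?_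
  rw [sub_self, abs_zero, max_eq_right (abs_nonneg _), ← sub_div, abs_div, abs_of_pos hr,
    div_mul_eq_mul_div]
  exact div_le_div_of_nonneg_right ((abs_norm_sub_norm_le _ _).trans h3) hr.le

theorem kern_const_mul {χ : ℕ} {col : Fin d → Fin χ} (c : Fin χ) (a : ℝ) (g : Space d → ℝ) (x : Space d) :
    kern V col c (fun y => a * g y) x = a * kern V col c g x := by
  simp only [kern]; rw [integral_const_mul]

theorem far_mean (hM : Model V col) {r L : ℝ} (hr : 0 < r) (hL : 0 ≤ L) :
    ∫ x, far r x ∂gibbs V ≤ 3 / r * (L + 1) + ballTail d L := by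
  have := mix_at_zero hM (test_far hr) (by positivity) hL (lipAt_far (col := col) hr)
  have h0 : far (d := d) r 0 = 0 := by simp [far]
  rw [h0, zero_sub, abs_neg] at this
  exact (le_abs_self _).trans this

/-- An approximate chain that uses at each step a kernel close to resampling on bounded states. -/
def approxRun (A : Fin 8 → (Space d → ℝ) → Space d → ℝ) : ℕ → (Space d → ℝ) → Space d → ℝ
  | 0, h => h
  | n + 1, h => A (colour n) (approxRun A n h)

theorem approx_chain (hM : Model V col) (A : Fin 8 → (Space d → ℝ) → Space d → ℝ)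
    (hA : ∀ c g, Test g → Test (A c g)) {δ r L : ℝ} (hδ0 : 0 ≤ δ) (hδ : δ ≤ 1) (hr : 0 < r)
    (hL : 0 ≤ L)
    (hclose : ∀ c g, Test g → ∀ x, |A c g x - kern V col c g x| ≤ δ + far r x)
    {h : Space d → ℝ} (hh : Test h) (T : ℕ) :
    |approxRun A T h 0 - run V col T h 0|
      ≤ T * (δ + 6 / r * (L + 1) + 3 * ballTail d L) + 2 * ballTail d L := by
  have : IsProbabilityMeasure (gibbs V) := ⟨gibbs_univ hM.block⟩
  set N : ℝ := 2 * (T + 1) with hN
  have hNpos : 0 < N := by positivity
  have hφ := test_far (d := d) hr
  have key : ∀ n, n ≤ T → Test (approxRun A n h) ∧ ∃ ψ : Space d → ℝ, Test ψ ∧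
      (∀ x, ψ x ≤ 2 * n / N) ∧ LipAt col 0 (n * (3 / r) / N) ψ ∧
      (∫ x, ψ x ∂gibbs V ≤ n * (δ + ∫ x, far r x ∂gibbs V) / N) ∧
      ∀ x, |approxRun A n h x - run V col n h x| ≤ N * ψ x := by
    intro n
    induction n with
    | zero =>
      exact fun _ => ⟨hh, fun _ => 0, ⟨measurable_const, fun _ => le_rfl, fun _ => zero_le_one⟩,
        by simp, fun x x' B _ _ _ => by simp, by simp, fun x => by simp [approxRun, run]⟩
    | succ n ih =>
      intro hn
      obtain ⟨htest, ψ, hψ, hψle, hψlip, hψint, hψdom⟩ := ih (by omega)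
      set c := colour n
      have hk := test_kern hM c hψ
      have hkle : ∀ x, kern V col c ψ x ≤ 2 * n / N := fun x => by
        have := condLaw_prob hM c x
        refine (integral_mono ((test_comp_upd hψ col c x).integrable _)
          (integrable_const (2 * (n : ℝ) / N)) fun s => hψle _).trans ?_
        simp
      have hle2 : ∀ x, (δ + far r x) / N + kern V col c ψ x ≤ 2 * ((n + 1 : ℕ) : ℝ) / N := by
        intro x
        have h1 : (δ + far r x) / N ≤ 2 / N :=
          div_le_div_of_nonneg_right (by linarith [hφ.le_one x]) hNpos.le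
        push_cast
        rw [mul_add, mul_one, add_div (2 * (n : ℝ))]
        linarith [hkle x]
      refine ⟨hA _ _ htest, fun x => (δ + far r x) / N + kern V col c ψ x,
        ⟨((measurable_const.add hφ.meas).div_const N).add hk.meas, fun x => ?_, fun x => ?_⟩,
        hle2, ?_, ?_, fun x => ?_⟩
      · have := hφ.nonneg x
        have := hk.nonneg x
        positivity
      · refine (hle2 x).trans ((div_le_one hNpos).2 ?_)
        have : ((n + 1 : ℕ) : ℝ) ≤ T := by exact_mod_cast hn
        linarith
      · intro x x' B hB h78 hge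
        have h1 := lipAt_far (col := col) hr x x' B hB h78 hge
        have h2 := hψlip.kern_any hM hψ c x x' B hB h78 hge
        have h1' := div_le_div_of_nonneg_right h1 hNpos.le
        have e : (δ + far r x') / N + kern V col c ψ x' - ((δ + far r x) / N + kern V col c ψ x)
            = (far r x' - far r x) / N + (kern V col c ψ x' - kern V col c ψ x) := by ring
        rw [e]
        refine (abs_add_le _ _).trans ((add_le_add (le_of_eq_of_le ?_ h1') h2).trans (le_of_eq ?_))
        · rw [abs_div, abs_of_pos hNpos]
        · push_cast; ring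
      · have i1 : Integrable (fun y => (δ + far r y) / N) (gibbs V) :=
          ((integrable_const δ).add (hφ.integrable _)).div_const N
        rw [integral_add i1 (hk.integrable _), integral_div, integral_add (integrable_const δ) (hφ.integrable _),
          kern_invariant hM c hψ, integral_const, probReal_univ, one_smul]
        push_cast
        rw [add_mul, one_mul, add_div ((n : ℝ) * _), add_div δ]
        linarith
      · set a := approxRun A n h
        set b := run V col n h
        have hb : Test b := test_run hM hh n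
        have h1 := hclose c a htest x
        have h2 : |kern V col c a x - kern V col c b x| ≤ N * kern V col c ψ x := by
          have := condLaw_prob hM c x
          rw [← kern_const_mul, kern, kern, ← integral_sub ((test_comp_upd htest col c x).integrable _)
            ((test_comp_upd hb col c x).integrable _)]
          exact abs_integral_le_integral_abs.trans (integral_mono
            (((test_comp_upd htest col c x).integrable _).sub
              ((test_comp_upd hb col c x).integrable _)).abs
            (((test_comp_upd hψ col c x).integrable _).const_mul N) fun s => hψdom _)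
        rw [mul_add, mul_div_cancel₀ _ hNpos.ne']
        exact (abs_sub_le _ _ _).trans (add_le_add h1 h2)
  obtain ⟨-, ψ, hψ, -, hlip, hint, hdom⟩ := key T le_rfl
  refine (hdom 0).trans ?_
  have h1 := mix_at_zero hM hψ (by positivity) hL hlip
  have h2 := far_mean hM hr hL
  have h3 : ψ 0 ≤ T * (3 / r) / N * (L + 1) + ballTail d L
      + T * (δ + ∫ x, far r x ∂gibbs V) / N := by
    linarith [le_abs_self (ψ 0 - ∫ x, ψ x ∂gibbs V)]
  refine (mul_le_mul_of_nonneg_left h3 hNpos.le).trans ?_
  have hT : (0 : ℝ) ≤ T := Nat.cast_nonneg T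
  have e : N * (T * (3 / r) / N * (L + 1) + ballTail d L
      + T * (δ + ∫ x, far r x ∂gibbs V) / N)
      = T * (3 / r) * (L + 1) + N * ballTail d L + T * (δ + ∫ x, far r x ∂gibbs V) := by
    field_simp
  rw [e, hN]
  have h4 := mul_le_mul_of_nonneg_left h2 hT
  have e2 : 6 / r * (L + 1) = 2 * (3 / r * (L + 1)) := by ring
  rw [e2]
  nlinarith

/-- **The chain.** -/
theorem chain_close (hM : Model V col) (A : Fin 8 → (Space d → ℝ) → Space d → ℝ)
    (hA : ∀ c g, Test g → Test (A c g)) {δ r L : ℝ} (hδ0 : 0 ≤ δ) (hδ : δ ≤ 1) (hr : 0 < r)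
    (hL : 0 ≤ L)
    (hclose : ∀ c g, Test g → ∀ x, |A c g x - kern V col c g x| ≤ δ + far r x)
    {h : Space d → ℝ} (hh : Test h) (R : ℕ) :
    |approxRun A (8 * (R + 1)) h 0 - ∫ x, h x ∂gibbs V|
      ≤ ((8 * (R + 1) : ℕ) : ℝ) * (δ + 6 / r * (L + 1) + 3 * ballTail d L) + 3 * ballTail d L
        + smoothConst d * Real.sqrt (7 / 8) ^ R * (L + 1) := by
  set T := 8 * (R + 1) with hT
  have h1 := approx_chain hM A hA hδ0 hδ hr hL hclose hh T
  have h2 := mix_at_zero hM (test_run hM hh T) (L := L)
    (mul_nonneg (smoothConst_nonneg d) (by positivity)) hL (hT ▸ run_contract hM hh R)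
  rw [run_invariant hM hh] at h2
  refine (abs_sub_le _ (run V col T h 0) _).trans ?_
  linarith

end

end P347
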