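import Vale.Agent.P347.Local.Perturb

/-!
# P347: resampling one colour

Given the other coordinates the coordinates of one colour are independent, each with a site law.
Resampling them preserves the Gibbs law, and the quantile coupling moves the colour by at most the
root of one eighth times the distance on the other colours.
-/

namespace P347

open MeasureTheory Finset
open scoped BigOperators RealInnerProductSpace

noncomputable section

variable {d χ : ℕ}

/-- Replace the coordinates of one colour. -/
def upd (col : Fin d → Fin χ) (c : Fin χ) (s : Fin d → ℝ) (x : Space d) : Space d :=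
  WithLp.toLp 2 fun i => if col i = c then s i else x i

@[simp] theorem upd_apply (col : Fin d → Fin χ) (c : Fin χ) (s : Fin d → ℝ) (x : Space d)
    (i : Fin d) : upd col c s x i = if col i = c then s i else x i := rfl

theorem continuous_upd (col : Fin d → Fin χ) (c : Fin χ) :
    Continuous fun z : (Fin d → ℝ) × Space d => upd col c z.1 z.2 := by
  unfold upd
  refine (PiLp.continuous_toLp 2 _).comp (continuous_pi fun i => ?_)
  split_ifs <;> fun_prop

/-- The squared distance seen on one colour. -/
def colSq (col : Fin d → Fin χ) (c : Fin χ) (e : Fin d → ℝ) : ℝ :=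
  ∑ i ∈ univ.filter (fun i => col i = c), e i ^ 2

theorem sum_colSq (col : Fin d → Fin χ) (e : Space d) : ∑ c, colSq col c e = ‖e‖ ^ 2 := by
  rw [EuclideanSpace.norm_sq_eq]
  simp only [colSq, Real.norm_eq_abs, sq_abs]
  exact sum_fiberwise _ col _

theorem colSq_le (col : Fin d → Fin χ) (c : Fin χ) (e : Space d) :
    colSq col c e ≤ ‖e‖ ^ 2 := by
  rw [← sum_colSq col e]
  exact single_le_sum (f := fun c' => colSq col c' e) (fun c' _ =>
    sum_nonneg fun i _ => sq_nonneg _) (mem_univ c)

variable (V : Space d → ℝ) (col : Fin d → Fin χ)

/-- The slope of a site, given the other colours. -/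
def slopeAt (x : Space d) (i : Fin d) (t : ℝ) : ℝ :=
  gradient V (WithLp.toLp 2 fun k => if col k = col i then t else x k) i

/-- The slopes used when a colour is resampled. -/
def condSlope (c : Fin χ) (x : Space d) (i : Fin d) (t : ℝ) : ℝ :=
  if col i = c then slopeAt V col x i t else t

/-- The law of the resampled coordinates. -/
def condLaw (c : Fin χ) (x : Space d) : Measure (Fin d → ℝ) :=
  Measure.pi fun i => siteLaw (condSlope V col c x i)

/-- Resampling one colour, on test functions. -/
def kern (c : Fin χ) (h : Space d → ℝ) (x : Space d) : ℝ :=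
  ∫ s, h (upd col c s x) ∂condLaw V col c x

variable {V col}

theorem slope_eq (hM : Model V col) {c : Fin χ} {i : Fin d} (hi : col i = c) (s : Fin d → ℝ)
    (x : Space d) : gradient V (upd col c s x) i = slopeAt V col x i (s i) := by
  refine hM.indep _ _ i (by simp [hi]) fun k hk => ?_
  rw [hi] at hk
  simp [hk, hi]

theorem slopeAt_congr {x y : Space d} {i : Fin d} (h : ∀ k, col k ≠ col i → x k = y k) :
    slopeAt V col x i = slopeAt V col y i := by
  funext t
  unfold slopeAt
  rw [show (fun k => if col k = col i then t else x k) = fun k => if col k = col i then t else y k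
    from funext fun k => by by_cases hk : col k = col i <;> simp [hk, h]]

theorem continuous_slopeAt (hM : Model V col) (i : Fin d) :
    Continuous fun z : Space d × ℝ => slopeAt V col z.1 i z.2 := by
  have hc := hM.block.cont
  have h1 : Continuous fun z : Space d × ℝ =>
      (WithLp.toLp 2 fun k => if col k = col i then z.2 else z.1 k : Space d) :=
    (PiLp.continuous_toLp 2 _).comp (continuous_pi fun k => by split_ifs <;> fun_prop)
  exact (by fun_prop : Continuous fun v : Space d => v i).comp (hc.comp h1)

theorem slope_slopeAt (hM : Model V col) (x : Space d) (i : Fin d) :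
    Slope (slopeAt V col x i) := by
  have key : ∀ t a, ∀ P Q : Space d, P = WithLp.toLp 2 (fun k => if col k = col i then t else x k) →
      Q = WithLp.toLp 2 (fun k => if col k = col i then t + a else x k) →
      slopeAt V col x i (t + a) - slopeAt V col x i t
        = (gradient V (P + EuclideanSpace.single i a) - gradient V P) i := by
    intro t a P Q hP hQ
    have h1 : gradient V Q i = gradient V (P + EuclideanSpace.single i a) i := by
      refine hM.indep _ _ i (by simp [hP, hQ]) fun k hk => ?_
      have hki : k ≠ i := fun e => hk (by rw [e])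
      simp [hP, hQ, hk, hki]
    simp only [slopeAt, ← hP, ← hQ]
    simp [h1]
  refine ⟨(continuous_slopeAt hM i).comp (f := fun t : ℝ => (x, t)) (by fun_prop),
    fun t a ha => ?_, fun t a ha => ?_⟩
  · rcases ha.eq_or_lt with rfl | hap
    · simp
    have hk := key t a _ _ rfl rfl
    have := hM.mono (WithLp.toLp 2 fun k => if col k = col i then t else x k)
      (EuclideanSpace.single i a)
    rw [EuclideanSpace.norm_single, Real.norm_eq_abs, sq_abs, EuclideanSpace.inner_single_right,
      conj_trivial, ← hk, sq] at this
    linarith [le_of_mul_le_mul_left this hap]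
  · have hk := key t a _ _ rfl rfl
    set P : Space d := WithLp.toLp 2 fun k => if col k = col i then t else x k
    have h1 := PiLp.norm_apply_le (gradient V (P + EuclideanSpace.single i a) - gradient V P) i
    have h2 := hM.lip P (EuclideanSpace.single i a)
    rw [EuclideanSpace.norm_single] at h2
    rw [Real.norm_eq_abs, ← hk] at h1
    rw [Real.norm_eq_abs, abs_of_nonneg ha] at h2
    linarith [le_abs_self (slopeAt V col x i (t + a) - slopeAt V col x i t)]

theorem slope_id : Slope fun t : ℝ => t :=
  ⟨continuous_id, fun _ _ _ => le_rfl, fun _ a ha => by linarith⟩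

theorem slope_cond (hM : Model V col) (c : Fin χ) (x : Space d) (i : Fin d) :
    Slope (condSlope V col c x i) := by
  unfold condSlope
  by_cases h : col i = c
  · simp only [if_pos h]; exact slope_slopeAt hM x i
  · simp only [if_neg h]; exact slope_id

theorem condLaw_prob (hM : Model V col) (c : Fin χ) (x : Space d) :
    IsProbabilityMeasure (condLaw V col c x) := by
  have := fun i => (slope_cond hM c x i).isProbability
  unfold condLaw; infer_instance

theorem condSlope_upd (c : Fin χ) (s : Fin d → ℝ) (x : Space d) :
    condSlope V col c (upd col c s x) = condSlope V col c x := by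
  funext i t
  unfold condSlope
  by_cases h : col i = c
  · simp only [if_pos h]
    rw [slopeAt_congr (y := x) fun k hk => by simp [show col k ≠ c from h ▸ hk]]
  · simp only [if_neg h]

/-- The potential adds up over the sites of one colour. -/
theorem upd_decomp (hM : Model V col) (c : Fin χ) (s : Fin d → ℝ) (x : Space d) :
    V (upd col c s x) - V (upd col c 0 x)
      = ∑ i ∈ univ.filter (fun i => col i = c), pot (slopeAt V col x i) (s i) := by
  set w := upd col c s 0
  have hline : ∀ t : ℝ, upd col c (t • s) x = upd col c 0 x + t • w := fun t => by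
    ext i; by_cases h : col i = c <;> simp [w, h]
  set R := univ.filter fun i => col i = c
  have hd : ∀ t : ℝ, HasDerivAt
      (fun t : ℝ => V (upd col c (t • s) x) - ∑ i ∈ R, pot (slopeAt V col x i) (t * s i)) 0 t := by
    intro t
    have g0 : HasDerivAt (fun t : ℝ => upd col c 0 x + t • w) w t := by
      simpa only [one_smul, id_eq] using ((hasDerivAt_id t).smul_const w).const_add (upd col c 0 x)
    have g1 : HasDerivAt (fun t : ℝ => V (upd col c (t • s) x))
        (fderiv ℝ V (upd col c (t • s) x) w) t := by
      simp only [hline]
      exact HasFDerivAt.comp_hasDerivAt (l := V) (f := fun t : ℝ => upd col c 0 x + t • w) t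
        (hM.diff _).hasFDerivAt g0
    have g2 : HasDerivAt (fun t : ℝ => ∑ i ∈ R, pot (slopeAt V col x i) (t * s i))
        (∑ i ∈ R, slopeAt V col x i (t * s i) * s i) t :=
      HasDerivAt.fun_sum fun i _ =>
        ((slope_slopeAt hM x i).hasDerivAt _).comp t (hasDerivAt_mul_const (s i))
    have e : fderiv ℝ V (upd col c (t • s) x) w = ∑ i ∈ R, slopeAt V col x i (t * s i) * s i := by
      rw [← inner_gradient, PiLp.inner_apply, sum_filter]
      refine sum_congr rfl fun i _ => ?_
      by_cases h : col i = c
      · rw [if_pos h, slope_eq hM h]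
        simp [w, h, mul_comm]
      · simp [w, h]
    have := g1.sub g2
    rwa [e, sub_self] at this
  have := is_const_of_deriv_eq_zero (fun t => (hd t).differentiableAt) (fun t => (hd t).deriv) 1 0
  simp [pot] at this
  simp only [R] at this ⊢
  simp only [pot]
  linarith

/-- The density of the resampled coordinates. -/
def condWeight (V : Space d → ℝ) (col : Fin d → Fin χ) (c : Fin χ) (x : Space d)
    (s : Fin d → ℝ) : ℝ :=
  ∏ i, siteDensity (condSlope V col c x i) (s i)

theorem measurable_condWeight (hM : Model V col) (c : Fin χ) :
    Measurable fun z : Space d × (Fin d → ℝ) => condWeight V col c z.1 z.2 := by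
  unfold condWeight
  refine Finset.measurable_prod _ fun i _ => ?_
  have hs : Continuous fun z : Space d × ℝ => condSlope V col c z.1 i z.2 := by
    unfold condSlope
    by_cases h : col i = c
    · simp only [if_pos h]; exact continuous_slopeAt hM i
    · simp only [if_neg h]; fun_prop
  have hp : Continuous fun z : Space d × ℝ => pot (condSlope V col c z.1 i) z.2 := by
    unfold pot
    exact intervalIntegral.continuous_parametric_intervalIntegral_of_continuous
      (f := fun (z : Space d × ℝ) (t : ℝ) => condSlope V col c z.1 i t)
      (hs.comp (by fun_prop : Continuous fun w : (Space d × ℝ) × ℝ => (w.1.1, w.2))) continuous_snd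
  have hw : Measurable fun z : Space d × ℝ => Real.exp (-pot (condSlope V col c z.1 i) z.2) :=
    (Real.continuous_exp.comp hp.neg).measurable
  have hZ : Measurable fun x : Space d => ∫ t, Real.exp (-pot (condSlope V col c x i) t) :=
    (hw.stronglyMeasurable.integral_prod_right').measurable
  unfold siteDensity
  exact (hw.comp (f := fun z : Space d × (Fin d → ℝ) => (z.1, z.2 i)) (by fun_prop)).div
    (hZ.comp measurable_fst)

theorem kern_eq (hM : Model V col) (c : Fin χ) (h : Space d → ℝ) (x : Space d) :
    kern V col c h x = ∫ s, condWeight V col c x s * h (upd col c s x) :=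
  integral_pi_site (fun i => slope_cond hM c x i) _

theorem test_comp_upd {h : Space d → ℝ} (hh : Test h) (col : Fin d → Fin χ) (c : Fin χ)
    (x : Space d) : Test fun s => h (upd col c s x) :=
  ⟨hh.meas.comp ((continuous_upd col c).comp (f := fun s => (s, x)) (by fun_prop)).measurable,
    fun _ => hh.nonneg _, fun _ => hh.le_one _⟩

theorem test_kern (hM : Model V col) (c : Fin χ) {h : Space d → ℝ} (hh : Test h) :
    Test (kern V col c h) := by
  refine ⟨?_, fun x => ?_, fun x => ?_⟩
  · have e : kern V col c h = fun x => ∫ s, condWeight V col c x s * h (upd col c s x) :=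
      funext (kern_eq hM c h)
    rw [e]
    have hm : Measurable fun z : Space d × (Fin d → ℝ) =>
        condWeight V col c z.1 z.2 * h (upd col c z.2 z.1) :=
      (measurable_condWeight hM c).mul (hh.meas.comp ((continuous_upd col c).comp
        (f := fun z : Space d × (Fin d → ℝ) => (z.2, z.1)) (by fun_prop)).measurable)
    exact (hm.stronglyMeasurable.integral_prod_right').measurable
  all_goals
    have := condLaw_prob hM c x
  exacts [((test_comp_upd hh col c x).integral_mem _).1, ((test_comp_upd hh col c x).integral_mem _).2]

/-- The two halves of a pair exchange the coordinates of one colour. -/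
def colourSwap (col : Fin d → Fin χ) (c : Fin χ) (z : (Fin d → ℝ) × (Fin d → ℝ)) :
    (Fin d → ℝ) × (Fin d → ℝ) :=
  (fun i => if col i = c then z.2 i else z.1 i, fun i => if col i = c then z.1 i else z.2 i)

theorem colourSwap_preserving (col : Fin d → Fin χ) (c : Fin χ) :
    MeasurePreserving (colourSwap col c) (volume.prod volume) (volume.prod volume) := by
  set e := MeasurableEquiv.arrowProdEquivProdArrow ℝ ℝ (Fin d)
  have he : MeasurePreserving e (Measure.pi fun _ => (volume : Measure ℝ).prod volume)
      ((volume : Measure (Fin d → ℝ)).prod volume) := by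
    simpa [volume_pi] using
      measurePreserving_arrowProdEquivProdArrow ℝ ℝ (Fin d) (fun _ => volume) fun _ => volume
  set σ := fun (i : Fin d) (p : ℝ × ℝ) => if col i = c then p.swap else p
  have hσ : ∀ i, MeasurePreserving (σ i) ((volume : Measure ℝ).prod volume)
      ((volume : Measure ℝ).prod volume) := fun i => by
    by_cases h : col i = c
    · simp only [σ, if_pos h]; exact Measure.measurePreserving_swap
    · simp only [σ, if_neg h]; exact MeasurePreserving.id _
  have h2 := he.comp ((measurePreserving_pi _ _ hσ).comp (he.symm e))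
  convert h2 using 1
  funext z
  refine Prod.ext (funext fun i => ?_) (funext fun i => ?_) <;>
    by_cases h : col i = c <;>
      simp [colourSwap, e, σ, MeasurableEquiv.arrowProdEquivProdArrow,
        Equiv.arrowProdEquivProdArrow, h]

theorem gibbs_integral (hM : Model V col) {f : Space d → ℝ} :
    ∫ x, f x ∂gibbs V = ∫ p : Fin d → ℝ,
      Real.exp (-V (WithLp.toLp 2 p)) / (∫ y, Real.exp (-V y)) * f (WithLp.toLp 2 p) := by
  have hm : Measurable fun x => Real.exp (-V x) / ∫ y, Real.exp (-V y) :=
    ((Real.continuous_exp.comp hM.block.continuous_potential.neg).div_const _).measurable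
  rw [gibbs, integral_withDensity_eq_integral_toReal_smul₀ hm.ennreal_ofReal.aemeasurable
      (Filter.Eventually.of_forall fun _ => ENNReal.ofReal_lt_top),
    ← (PiLp.volume_preserving_toLp (Fin d)).integral_comp
      (MeasurableEquiv.toLp 2 (Fin d → ℝ)).measurableEmbedding]
  refine integral_congr_ae (Filter.Eventually.of_forall fun p => ?_)
  simp [ENNReal.toReal_ofReal (div_nonneg (Real.exp_nonneg _) (weight_pos hM.block).le)]

/-- Resampling a colour preserves the Gibbs law. -/
theorem kern_invariant (hM : Model V col) (c : Fin χ) {h : Space d → ℝ} (hh : Test h) :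
    ∫ x, kern V col c h x ∂gibbs V = ∫ x, h x ∂gibbs V := by
  set Z := ∫ y, Real.exp (-V y)
  have hZ : 0 < Z := weight_pos hM.block
  rw [gibbs_integral hM, gibbs_integral hM]
  set a := fun p : Fin d → ℝ => Real.exp (-V (WithLp.toLp 2 p)) / Z
  set T := fun p : Fin d → ℝ => (WithLp.toLp 2 p : Space d)
  have hT : Continuous T := PiLp.continuous_toLp 2 _
  have ha : Measurable a :=
    ((Real.continuous_exp.comp (hM.block.continuous_potential.comp hT).neg).div_const _).measurable
  have hw0 : ∀ x s, 0 ≤ condWeight V col c x s := fun x s =>
    prod_nonneg fun i _ => ((slope_cond hM c x i).density_pos _).le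
  set Φ := fun z : (Fin d → ℝ) × (Fin d → ℝ) =>
    ENNReal.ofReal (a z.1 * condWeight V col c (T z.1) z.2 * h (T z.1)) with hΦ
  have hΦm : Measurable Φ := (((ha.comp measurable_fst).mul ((measurable_condWeight hM c).comp
    ((hT.measurable.comp measurable_fst).prodMk measurable_snd))).mul
    (hh.meas.comp (hT.measurable.comp measurable_fst))).ennreal_ofReal
  have hflip : ∀ z, Φ (colourSwap col c z)
      = ENNReal.ofReal (a z.1 * condWeight V col c (T z.1) z.2 * h (upd col c z.2 (T z.1))) := by
    rintro ⟨p, s⟩
    have e1 : T (colourSwap col c (p, s)).1 = upd col c s (T p) := by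
      ext i; by_cases hi : col i = c <;> simp [T, colourSwap, hi]
    simp only [Φ, e1, condWeight, condSlope_upd]
    refine congrArg (fun r => ENNReal.ofReal (r * _)) ?_
    simp only [a, show T (colourSwap col c (p, s)).1
      = WithLp.toLp 2 (colourSwap col c (p, s)).1 from rfl] at e1 ⊢
    rw [e1]
    simp only [siteDensity, prod_div_distrib, ← Real.exp_sum]
    rw [div_mul_div_comm, div_mul_div_comm, ← Real.exp_add, ← Real.exp_add]
    congr 2
    have hsplit : ∀ q : Fin d → ℝ, ∑ i, -pot (condSlope V col c (T p) i) (q i)
        = -(∑ i ∈ univ.filter (fun i => col i = c), pot (slopeAt V col (T p) i) (q i))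
          + ∑ i ∈ univ.filter (fun i => ¬col i = c), -pot (fun t => t) (q i) := fun q => by
      rw [← sum_filter_add_sum_filter_not univ (fun i => col i = c), ← sum_neg_distrib]
      refine congrArg₂ _ (sum_congr rfl fun i hi => ?_) (sum_congr rfl fun i hi => ?_) <;>
        simp only [mem_filter, mem_univ, true_and] at hi <;>
        simp [show condSlope V col c (T p) i = _ from funext fun t => by
          simp only [condSlope, hi, if_true, if_false]; rfl]
    have hrest : ∑ i ∈ univ.filter (fun i => ¬col i = c),
          -pot (fun t => t) ((colourSwap col c (p, s)).2 i)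
        = ∑ i ∈ univ.filter (fun i => ¬col i = c), -pot (fun t => t) (s i) :=
      sum_congr rfl fun i hi => by simp [colourSwap, (mem_filter.1 hi).2]
    have hin : ∑ i ∈ univ.filter (fun i => col i = c),
          pot (slopeAt V col (T p) i) ((colourSwap col c (p, s)).2 i)
        = ∑ i ∈ univ.filter (fun i => col i = c), pot (slopeAt V col (T p) i) (p i) :=
      sum_congr rfl fun i hi => by simp [colourSwap, (mem_filter.1 hi).2]
    rw [hsplit, hsplit, hrest, hin, ← upd_decomp hM, ← upd_decomp hM,
      show upd col c p (T p) = T p from by ext i; simp [T]]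
    ring
  have key : ∫⁻ z, Φ (colourSwap col c z) ∂volume.prod volume
      = ∫⁻ z, Φ z ∂volume.prod volume :=
    (colourSwap_preserving col c).lintegral_comp hΦm
  have hLm : Measurable fun z => Φ (colourSwap col c z) :=
    hΦm.comp (colourSwap_preserving col c).measurable
  rw [lintegral_prod _ hLm.aemeasurable, lintegral_prod _ hΦm.aemeasurable] at key
  have hint : ∀ x : Space d, Integrable (condWeight V col c x) := fun x =>
    Integrable.fintype_prod fun i => (slope_cond hM c x i).integrable_density
  have hinner : ∀ (p : Fin d → ℝ) (g : (Fin d → ℝ) → ℝ), Test g →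
      ∫⁻ s, ENNReal.ofReal (a p * condWeight V col c (T p) s * g s)
        = ENNReal.ofReal (a p * ∫ s, condWeight V col c (T p) s * g s) := fun p g hg => by
    have hap : 0 ≤ a p := div_nonneg (Real.exp_nonneg _) hZ.le
    have hi : Integrable fun s => condWeight V col c (T p) s * g s := by
      refine (hint (T p)).mono' ((hint (T p)).aestronglyMeasurable.mul
        hg.meas.aestronglyMeasurable) (Filter.Eventually.of_forall fun s => ?_)
      rw [Real.norm_eq_abs, abs_of_nonneg (mul_nonneg (hw0 _ s) (hg.nonneg s))]
      exact mul_le_of_le_one_right (hw0 _ s) (hg.le_one s)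
    rw [← integral_const_mul, ofReal_integral_eq_lintegral_ofReal (hi.const_mul _)
      (Filter.Eventually.of_forall fun s => mul_nonneg hap (mul_nonneg (hw0 _ s) (hg.nonneg s)))]
    simp only [mul_assoc]
  have hright : ∀ p, ∫⁻ s, Φ (p, s) = ENNReal.ofReal (a p * h (T p)) := fun p => by
    simp only [Φ]
    rw [hinner p (fun _ => h (T p)) ⟨measurable_const, fun _ => hh.nonneg _, fun _ => hh.le_one _⟩,
      integral_mul_const]
    simp only [condWeight]
    rw [integral_fintype_prod_volume_eq_prod, prod_congr rfl fun i _ =>
      (slope_cond hM c (T p) i).integral_density]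
    simp
  have hleft : ∀ p, ∫⁻ s, Φ (colourSwap col c (p, s))
      = ENNReal.ofReal (a p * kern V col c h (T p)) := fun p => by
    simp only [hflip]
    rw [hinner p _ (test_comp_upd hh col c (T p)), kern_eq hM]
  simp only [hleft, hright] at key
  have ha0 : ∀ p, 0 ≤ a p := fun p => div_nonneg (Real.exp_nonneg _) hZ.le
  rw [integral_eq_lintegral_of_nonneg_ae
      (Filter.Eventually.of_forall fun p => mul_nonneg (ha0 p) ((test_kern hM c hh).nonneg _))
      (ha.mul ((test_kern hM c hh).meas.comp hT.measurable)).aestronglyMeasurable,
    integral_eq_lintegral_of_nonneg_ae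
      (Filter.Eventually.of_forall fun p => mul_nonneg (ha0 p) (hh.nonneg _))
      (ha.mul (hh.meas.comp hT.measurable)).aestronglyMeasurable, key]

theorem root_pairs (hM : Model V col) {c : Fin χ} {x x' : Space d} (t t' : Fin d → ℝ)
    (heq : ∀ i, col i = c → slopeAt V col x' i (t' i) = slopeAt V col x i (t i)) :
    8 * colSq col c (fun i => t' i - t i) ≤ ‖x' - x‖ ^ 2 - colSq col c (x' - x).ofLp := by
  set z := upd col c t x
  set v := upd col c t' x' - z
  set G := gradient V (z + v) - gradient V z - (3 / 2 : ℝ) • v
  have h1 : colSq col c G ≤ 1 / 4 * ‖v‖ ^ 2 := by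
    have := hM.cross z v
    have := colSq_le col c G
    have := mul_le_mul (hM.cross z v) (hM.cross z v) (norm_nonneg _) (by positivity)
    nlinarith
  have h2 : colSq col c G = 9 / 4 * colSq col c (fun i => t' i - t i) := by
    simp only [colSq, mul_sum]
    refine sum_congr rfl fun i hi => ?_
    have hi' : col i = c := (mem_filter.1 hi).2
    simp [G, v, z, slope_eq hM hi', heq i hi', hi']
    ring
  have h3 : ‖v‖ ^ 2 = colSq col c (fun i => t' i - t i)
      + (‖x' - x‖ ^ 2 - colSq col c (x' - x).ofLp) := by
    rw [← sum_colSq col v, ← sum_colSq col (x' - x),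
      ← add_sum_erase _ _ (mem_univ c),
      ← add_sum_erase _ (fun c' => colSq col c' (x' - x).ofLp) (mem_univ c), add_sub_cancel_left]
    refine congrArg₂ _ (sum_congr rfl fun i hi => ?_) (sum_congr rfl fun c' hc' => ?_)
    · simp [v, z, (mem_filter.1 hi).2]
    · refine sum_congr rfl fun i hi => ?_
      have : col i ≠ c := (mem_filter.1 hi).2 ▸ ne_of_mem_erase hc'
      simp [v, z, this]
  linarith

/-- **Quantile coupling.** -/
theorem quantile_coupling_of (hM : Model V col) (c : Fin χ) (x x' : Space d) {u : Fin d → ℝ}
    (hu : ∀ i, u i ∈ Set.Ioo (0 : ℝ) 1) {M : ℝ}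
    (hroot : ∀ t t' : Fin d → ℝ,
      (∀ i, col i = c → slopeAt V col x' i (t' i) = slopeAt V col x i (t i)) →
      colSq col c (fun i => t' i - t i) ≤ M) :
    colSq col c (fun i => quantile (siteLaw (condSlope V col c x' i)) (u i)
        - quantile (siteLaw (condSlope V col c x i)) (u i)) ≤ M := by
  set q := fun i => quantile (siteLaw (condSlope V col c x i)) (u i)
  set q' := fun i => quantile (siteLaw (condSlope V col c x' i)) (u i)
  have hθ : ∀ θ ∈ Set.Ioo (0 : ℝ) 1, θ ^ 2 * colSq col c (fun i => q' i - q i)
      ≤ M := by
    intro θ hθ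
    have hex : ∀ i, ∃ t t', col i = c → slopeAt V col x' i t' = slopeAt V col x i t ∧
        θ ^ 2 * (q' i - q i) ^ 2 ≤ (t' - t) ^ 2 := fun i => by
      by_cases hi : col i = c
      swap; · exact ⟨0, 0, fun h => absurd h hi⟩
      have hs : ∀ y, condSlope V col c y i = slopeAt V col y i := fun y => by
        funext t; simp [condSlope, hi]
      have S := slope_slopeAt hM x i
      have S' := slope_slopeAt hM x' i
      rcases lt_trichotomy (q i) (q' i) with hlt | heq | hgt
      · set b := θ * (q' i - q i)
        obtain ⟨t, ht⟩ : ∃ t, slopeAt V col x' i (t + b) < slopeAt V col x i t := by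
          by_contra hc
          push Not at hc
          have := quantile_shift S S' hc (u i) (hu i)
          simp only [q, q', hs, b] at this hlt
          nlinarith [hθ.2]
        obtain ⟨t', ht'⟩ := S'.exists_eq (slopeAt V col x i t)
        have hbt : t + b ≤ t' := by
          by_contra hc
          linarith [S'.monotone (not_le.1 hc).le]
        exact ⟨t, t', fun _ => ⟨ht', by
          have := pow_le_pow_left₀ (mul_nonneg hθ.1.le (sub_nonneg.2 hlt.le))
            (show b ≤ t' - t by linarith) 2
          nlinarith⟩⟩
      · obtain ⟨t', ht'⟩ := S'.exists_eq (slopeAt V col x i 0)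
        exact ⟨0, t', fun _ => ⟨ht', by rw [heq]; simp; positivity⟩⟩
      · set b := θ * (q i - q' i)
        obtain ⟨t', ht'⟩ : ∃ t', slopeAt V col x i (t' + b) < slopeAt V col x' i t' := by
          by_contra hc
          push Not at hc
          have := quantile_shift S' S hc (u i) (hu i)
          simp only [q, q', hs, b] at this hgt
          nlinarith [hθ.2]
        obtain ⟨t, ht⟩ := S.exists_eq (slopeAt V col x' i t')
        have hbt : t' + b ≤ t := by
          by_contra hc
          linarith [S.monotone (not_le.1 hc).le]
        exact ⟨t, t', fun _ => ⟨ht.symm, by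
          have := pow_le_pow_left₀ (mul_nonneg hθ.1.le (sub_nonneg.2 hgt.le))
            (show b ≤ t - t' by linarith) 2
          nlinarith⟩⟩
    choose t t' htt using hex
    refine le_trans ?_ (hroot t t' fun i hi => (htt i hi).1)
    simp only [colSq, mul_sum]
    refine sum_le_sum fun i hi => ?_
    have := (htt i (mem_filter.1 hi).2).2
    nlinarith
  set S := colSq col c fun i => q' i - q i
  have ht : Filter.Tendsto (fun θ : ℝ => θ ^ 2 * S) (nhdsWithin 1 (Set.Iio 1)) (nhds S) := by
    simpa using ((by fun_prop : Continuous fun θ : ℝ => θ ^ 2 * S).tendsto 1).mono_left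
      nhdsWithin_le_nhds
  refine le_of_tendsto ht ?_
  filter_upwards [Ioo_mem_nhdsLT one_pos] with θ h using hθ θ h

theorem quantile_coupling (hM : Model V col) (c : Fin χ) (x x' : Space d) {u : Fin d → ℝ}
    (hu : ∀ i, u i ∈ Set.Ioo (0 : ℝ) 1) :
    8 * colSq col c (fun i => quantile (siteLaw (condSlope V col c x' i)) (u i)
        - quantile (siteLaw (condSlope V col c x i)) (u i))
      ≤ ‖x' - x‖ ^ 2 - colSq col c (x' - x).ofLp := by
  have := quantile_coupling_of hM c x x' hu
    (M := (‖x' - x‖ ^ 2 - colSq col c (x' - x).ofLp) / 8)
    fun t t' h => by linarith [root_pairs hM (c := c) t t' h]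
  linarith

theorem kern_quantile (hM : Model V col) (c : Fin χ) {h : Space d → ℝ} (hh : Test h) (x : Space d) :
    kern V col c h x = ∫ u, h (upd col c (fun i => quantile (siteLaw (condSlope V col c x i)) (u i)) x)
      ∂(Measure.pi fun _ : Fin d => openUnif) := by
  have := fun i => (slope_cond hM c x i).isProbability
  have hq : Measurable fun (u : Fin d → ℝ) i => quantile (siteLaw (condSlope V col c x i)) (u i) :=
    measurable_pi_lambda _ fun i => (measurable_quantile _).comp (measurable_pi_apply i)
  have e : condLaw V col c x = (Measure.pi fun _ : Fin d => openUnif).map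
      fun u i => quantile (siteLaw (condSlope V col c x i)) (u i) := by
    have : ∀ i, IsProbabilityMeasure
        (openUnif.map (quantile (siteLaw (condSlope V col c x i)))) := fun i => by
      rw [map_quantile]; infer_instance
    rw [Measure.pi_map_pi fun i => (measurable_quantile _).aemeasurable]
    simp only [map_quantile]
    rfl
  rw [kern, e, integral_map hq.aemeasurable (test_comp_upd hh col c x).meas.aestronglyMeasurable]

theorem openUnif_ae (d : ℕ) :
    ∀ᵐ u ∂(Measure.pi fun _ : Fin d => openUnif), ∀ i, u i ∈ Set.Ioo (0 : ℝ) 1 :=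
  Filter.eventually_all.2 fun l => (Measure.quasiMeasurePreserving_eval _ l).ae
    (ae_restrict_mem measurableSet_Ioo)

end

end P347
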