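import Vale.Agent.P347.Local.Sampler

/-!
# P347: the adaptive algorithm as a machine

The memory holds a counter, the state, the current centre with its gradient, and the answers of the
running step. Every query and update uses the memory and the seeds only.
-/

namespace P347

open MeasureTheory Finset
open scoped BigOperators RealInnerProductSpace

noncomputable section

variable {d : ℕ}

/-- The memory. -/
abbrev Memory (d N : ℕ) : Type :=
  ℕ × Space d × (Fin d → ℝ) × Space d × (Fin N → ℝ × Space d)

/-- The seeds of all steps. -/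
abbrev RunSeed (d T J K : ℕ) : Type := Fin (T + 1) → StepSeed d J K

variable (col : Fin d → Fin 8) (G : ℕ) {T J K : ℕ}

/-- The queries of one step. -/
def stepLength (G J K : ℕ) : ℕ := G + J * K + 2

/-- The index of the seed of the step with the given counter. -/
def seedIndex (T G J K n : ℕ) : Fin (T + 1) := ⟨T - n / stepLength G J K, Nat.lt_succ_of_le (Nat.sub_le _ _)⟩

open Classical in
/-- The next query. -/
def nextQuery (ω : RunSeed d T J K) (s : Memory d (J * K)) : Space d :=
  let k := seedIndex T G J K s.1
  let i := s.1 % stepLength G J K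
  if i ≤ G then upd col (colour k) s.2.2.1 s.2.1
  else if h : i - G - 1 < J * K then
    samplePoint col (colour k) s.2.1 s.2.2.1 (ω k) ⟨i - G - 1, h⟩
  else s.2.1

open Classical in
/-- The update of the memory by an answer. -/
def nextMemory (ω : RunSeed d T J K) (s : Memory d (J * K)) (a : ℝ × Space d) :
    Memory d (J * K) :=
  let k := seedIndex T G J K s.1
  let i := s.1 % stepLength G J K
  if i < G then (s.1 + 1, s.2.1, descendStep a.2 s.2.2.1, s.2.2.2.1, s.2.2.2.2)
  else if i = G then (s.1 + 1, s.2.1, s.2.2.1, a.2, s.2.2.2.2)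
  else if h : i - G - 1 < J * K then
    (s.1 + 1, s.2.1, s.2.2.1, s.2.2.2.1, Function.update s.2.2.2.2 ⟨i - G - 1, h⟩ a)
  else (s.1 + 1, stepOut col (colour k) s.2.1 s.2.2.1 s.2.2.2.1 (ω k) s.2.2.2.2, 0,
    s.2.2.2.1, s.2.2.2.2)

theorem measurable_fixCounter {α β γ : Type} [MeasurableSpace α] [MeasurableSpace β]
    [MeasurableSpace γ] {F : α → ℕ × β → γ} (h : ∀ n, Measurable fun z : α × β => F z.1 (n, z.2)) :
    Measurable fun z : α × (ℕ × β) => F z.1 z.2 := by
  have hg : Measurable fun w : ℕ × (α × β) => F w.2.1 (w.1, w.2.2) :=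
    measurable_from_prod_countable_right h
  exact hg.comp (f := fun z : α × (ℕ × β) => (z.2.1, (z.1, z.2.2))) (by fun_prop)

theorem measurable_nextQuery :
    Measurable fun z : RunSeed d T J K × Memory d (J * K) => nextQuery col G z.1 z.2 := by
  refine measurable_fixCounter fun n => ?_
  simp only [nextQuery]
  split_ifs with h1 h2
  · exact (continuous_upd col _).measurable.comp
      (f := fun z : RunSeed d T J K × (Space d × (Fin d → ℝ) × Space d × (Fin (J * K) → ℝ × Space d))
        => (z.2.2.1, z.2.1)) (by fun_prop)
  · have hf : Measurable fun z : RunSeed d T J K ×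
        (Space d × (Fin d → ℝ) × Space d × (Fin (J * K) → ℝ × Space d)) =>
        ((z.2.1, z.2.2.1, z.1 (seedIndex T G J K n)) : Space d × (Fin d → ℝ) × StepSeed d J K) :=
      (measurable_fst.comp measurable_snd).prodMk ((measurable_fst.comp
        (measurable_snd.comp measurable_snd)).prodMk ((measurable_pi_apply _).comp measurable_fst))
    have h := (measurable_samplePoint (col := col) (colour ↑(seedIndex T G J K n))
      (⟨n % stepLength G J K - G - 1, h2⟩ : Fin (J * K))).comp hf
    simpa only [Function.comp_def] using h
  · fun_prop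

theorem measurable_nextMemory :
    Measurable fun z : (RunSeed d T J K × (ℝ × Space d)) × Memory d (J * K) =>
      nextMemory col G z.1.1 z.2 z.1.2 := by
  refine measurable_fixCounter
    (F := fun (a : RunSeed d T J K × (ℝ × Space d)) s => nextMemory col G a.1 s a.2) fun n => ?_
  simp only [nextMemory]
  split_ifs with h1 h2 h3
  · unfold descendStep; fun_prop
  · fun_prop
  · refine measurable_const.prodMk (Measurable.prodMk (by fun_prop) (Measurable.prodMk (by fun_prop)
      (Measurable.prodMk (by fun_prop) (measurable_pi_lambda _ fun l => ?_))))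
    by_cases hl : l = ⟨n % stepLength G J K - G - 1, h3⟩
    · subst hl; simp only [Function.update_self]; fun_prop
    · simp only [Function.update_of_ne hl]; fun_prop
  · refine measurable_const.prodMk (Measurable.prodMk ?_ (by fun_prop))
    exact (measurable_stepOut (col := col) _).comp
      (f := fun z : (RunSeed d T J K × (ℝ × Space d)) ×
          (Space d × (Fin d → ℝ) × Space d × (Fin (J * K) → ℝ × Space d)) =>
        (z.2.1, z.2.2.1, z.2.2.2.1, z.1.1 (seedIndex T G J K n), z.2.2.2.2)) (by fun_prop)

variable (V : Space d → ℝ)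

/-- One interaction with the oracle. -/
def interact (ω : RunSeed d T J K) (s : Memory d (J * K)) : Memory d (J * K) :=
  nextMemory col G ω s (V (nextQuery col G ω s), gradient V (nextQuery col G ω s))

/-- The steps in their order of execution. -/
def foldSteps : (n : ℕ) → (Fin n → StepSeed d J K) → Space d → Space d
  | 0, _, x => x
  | n + 1, ω, x => foldSteps n (fun j => ω j.castSucc)
      (stepMap V col G (colour n) (ω (Fin.last n)) x)

variable {V col G}

theorem interact_step (ω : RunSeed d T J K) (p : ℕ) (hp : p ≤ T) (x : Space d)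
    (s : Memory d (J * K)) (hs : s.1 = p * stepLength G J K) (hx : s.2.1 = x) (hm : s.2.2.1 = 0) :
    ((interact col G V ω)^[stepLength G J K] s).1 = (p + 1) * stepLength G J K ∧
    ((interact col G V ω)^[stepLength G J K] s).2.1
      = stepMap V col G (colour (T - p)) (ω ⟨T - p, by omega⟩) x ∧
    ((interact col G V ω)^[stepLength G J K] s).2.2.1 = 0 := by
  set Q := stepLength G J K with hQ
  set F := interact col G V ω
  have hQ0 : 0 < Q := by simp [hQ, stepLength]
  have hk : ∀ i, i < Q →
      seedIndex T G J K (p * Q + i) = ⟨T - p, by omega⟩ ∧ (p * Q + i) % Q = i := fun i hi => by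
    refine ⟨Fin.ext ?_, ?_⟩
    · simp only [seedIndex, ← hQ]
      rw [Nat.add_comm, Nat.add_mul_div_right _ _ hQ0, Nat.div_eq_of_lt hi, zero_add]
    · rw [Nat.add_comm, Nat.add_mul_mod_self_right, Nat.mod_eq_of_lt hi]
  set c := colour (T - p)
  -- descent
  have h1 : ∀ i, i ≤ G → (F^[i] s).1 = p * Q + i ∧ (F^[i] s).2.1 = x ∧
      (F^[i] s).2.2.1 = descend V col c x i := by
    intro i
    induction i with
    | zero => exact fun _ => ⟨hs, hx, hm⟩
    | succ i ih =>
      intro hi
      obtain ⟨a, b, e⟩ := ih (by omega)
      obtain ⟨k1, k2⟩ := hk i (by simp only [hQ, stepLength]; omega)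
      rw [Function.iterate_succ_apply']
      simp only [F, interact, nextMemory, nextQuery, a, k1, k2, ← hQ,
        if_pos (show i < G by omega), if_pos (show i ≤ G by omega), b, e]
      refine ⟨by simp [Nat.add_assoc], ?_, ?_⟩ <;> trivial
  set m := descend V col c x G
  set g := gradient V (upd col c m x)
  set w := ω ⟨T - p, by omega⟩
  -- samples
  have h2 : ∀ n, n ≤ J * K → (F^[G + 1 + n] s).1 = p * Q + (G + 1 + n) ∧
      (F^[G + 1 + n] s).2.1 = x ∧ (F^[G + 1 + n] s).2.2.1 = m ∧ (F^[G + 1 + n] s).2.2.2.1 = g ∧
      ∀ l : Fin (J * K), (l : ℕ) < n → (F^[G + 1 + n] s).2.2.2.2 l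
        = (V (samplePoint col c x m w l), gradient V (samplePoint col c x m w l)) := by
    intro n
    induction n with
    | zero =>
      intro _
      obtain ⟨a, b, e⟩ := h1 G le_rfl
      obtain ⟨k1, k2⟩ := hk G (by simp only [hQ, stepLength]; omega)
      rw [Nat.add_zero, Function.iterate_succ_apply']
      simp only [F, interact, nextMemory, nextQuery, a, k1, k2, ← hQ, if_neg (lt_irrefl G),
        if_true, le_refl, b, e]
      exact ⟨by simp [Nat.add_assoc], by trivial, by trivial, by trivial,
        fun l hl => absurd hl (Nat.not_lt_zero _)⟩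
    | succ n ih =>
      intro hn
      obtain ⟨a, b, e, e', r⟩ := ih (by omega)
      obtain ⟨k1, k2⟩ := hk (G + 1 + n) (by simp only [hQ, stepLength]; omega)
      have hlt : G + 1 + n - G - 1 < J * K := by omega
      rw [← Nat.add_assoc, Function.iterate_succ_apply']
      simp only [F, interact, nextMemory, nextQuery, a, k1, k2, ← hQ,
        if_neg (show ¬G + 1 + n < G by omega), if_neg (show ¬G + 1 + n = G by omega),
        if_neg (show ¬G + 1 + n ≤ G by omega), dif_pos hlt, b, e, e']
      refine ⟨by simp [Nat.add_assoc], by trivial, by trivial, by trivial, fun l hl => ?_⟩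
      by_cases hln : l = ⟨G + 1 + n - G - 1, hlt⟩
      · rw [hln, Function.update_self]
      · rw [Function.update_of_ne hln]
        refine r l ?_
        have : (l : ℕ) ≠ G + 1 + n - G - 1 := fun h => hln (Fin.ext h)
        omega
  obtain ⟨a, b, e, e', r⟩ := h2 (J * K) le_rfl
  obtain ⟨k1, k2⟩ := hk (G + 1 + J * K) (by simp only [hQ, stepLength]; omega)
  have hlast : Q = G + 1 + J * K + 1 := by simp only [hQ, stepLength]; omega
  rw [congrArg (fun n => F^[n] s) hlast, Function.iterate_succ_apply']
  simp only [F, interact, nextMemory, nextQuery, a, k1, k2, ← hQ,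
    if_neg (show ¬G + 1 + J * K < G by omega), if_neg (show ¬G + 1 + J * K = G by omega),
    dif_neg (show ¬G + 1 + J * K - G - 1 < J * K by omega), b, e, e']
  refine ⟨by rw [Nat.succ_mul]; omega, ?_, trivial⟩
  rw [stepMap]
  refine congrArg (stepOut col c x m g w) (funext fun l => ?_)
  exact r l l.2

/-- The machine computes the fold of the steps. -/
theorem interact_run (ω : RunSeed d T J K) (s₀ : Memory d (J * K)) (h0 : s₀.1 = 0)
    (hx : s₀.2.1 = 0) (hm : s₀.2.2.1 = 0) :
    ((interact col G V ω)^[(T + 1) * stepLength G J K] s₀).2.1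
      = foldSteps col G V (T + 1) ω 0 := by
  have key : ∀ p k, (h : k + p = T + 1) →
      let s := (interact col G V ω)^[p * stepLength G J K] s₀
      s.1 = p * stepLength G J K ∧ s.2.2.1 = 0 ∧
        foldSteps col G V k (fun j => ω ⟨j, by omega⟩) s.2.1 = foldSteps col G V (T + 1) ω 0 := by
    intro p
    induction p with
    | zero =>
      intro k h
      obtain rfl : k = T + 1 := by omega
      simp [h0, hm, hx]
    | succ p ih =>
      intro k h
      obtain ⟨a, b, c⟩ := ih (k + 1) (by omega)
      obtain ⟨a', x', m'⟩ := interact_step (col := col) (V := V) ω p (by omega) _ _ a rfl b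
      simp only [Nat.succ_mul p, Function.iterate_add_apply, Nat.add_comm (p * _)]
      refine ⟨by rw [a', Nat.succ_mul]; omega, m', ?_⟩
      rw [← c, x']
      have hk : T - p = k := by omega
      simp only [hk, foldSteps]
      rfl
  obtain ⟨-, -, h⟩ := key (T + 1) 0 (by omega)
  simpa [foldSteps] using h

theorem measurable_foldSteps (hM : Model V col) : ∀ n, Measurable fun z : (Fin n → StepSeed d J K) × Space d =>
    foldSteps col G V n z.1 z.2
  | 0 => measurable_snd
  | n + 1 => by
    have h1 := measurable_stepMap hM G (J := J) (K := K) (colour n)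
    exact (measurable_foldSteps hM n).comp
      ((measurable_pi_lambda _ fun j => (measurable_pi_apply j.castSucc).comp measurable_fst).prodMk
        (h1.comp (measurable_snd.prodMk ((measurable_pi_apply (Fin.last n)).comp measurable_fst))))

theorem integral_foldSteps (hM : Model V col) {h : Space d → ℝ} (hh : Test h) :
    ∀ n x, ∫ ω, h (foldSteps col G V n ω x) ∂(Measure.pi fun _ : Fin n => stepLaw d J K)
      = approxRun (stepKern V col G J K) n h x
  | 0, x => by simp [foldSteps, approxRun]
  | n + 1, x => by
    set e := MeasurableEquiv.piFinSuccAbove (fun _ : Fin (n + 1) => StepSeed d J K) (Fin.last n)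
    have he := measurePreserving_piFinSuccAbove (fun _ : Fin (n + 1) => stepLaw d J K) (Fin.last n)
    set F := fun z : StepSeed d J K × (Fin n → StepSeed d J K) =>
      h (foldSteps col G V n z.2 (stepMap V col G (colour n) z.1 x))
    have hF : Test F := ⟨hh.meas.comp ((measurable_foldSteps hM n).comp (measurable_snd.prodMk
      ((measurable_stepMap hM G (colour n)).comp (measurable_const.prodMk measurable_fst)))),
      fun _ => hh.nonneg _, fun _ => hh.le_one _⟩
    have e1 : (fun ω : Fin (n + 1) → StepSeed d J K => h (foldSteps col G V (n + 1) ω x))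
        = fun ω => F (e ω) := by
      funext ω
      simp only [foldSteps, F, e, MeasurableEquiv.piFinSuccAbove_apply, Fin.insertNthEquiv,
        Equiv.coe_fn_symm_mk]
      rw [show (Fin.last n).removeNth ω = fun j => ω j.castSucc from
        funext fun j => by simp [Fin.removeNth_apply, Fin.succAbove_last]]
    rw [e1, he.integral_comp e.measurableEmbedding, integral_prod F (hF.integrable _)]
    simp only [F, integral_foldSteps hM hh n]
    rfl

end

end P347
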