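import Vale.Agent.P347.Local.Model

/-!
# P347: one-dimensional conditional laws

A site law has log-density with derivative `-D`, where `D` increases with slope between one and two.
If `D s ≤ D' (s + a)` for all `s`, the quantiles move by at most `a`; if the derivatives are close,
product laws are close in total variation.
-/

namespace P347

open MeasureTheory Finset
open scoped BigOperators RealInnerProductSpace

noncomputable section

/-- A derivative with slope between one and two. -/
structure Slope (D : ℝ → ℝ) : Prop where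
  cont : Continuous D
  lo : ∀ s a, 0 ≤ a → D s + a ≤ D (s + a)
  hi : ∀ s a, 0 ≤ a → D (s + a) ≤ D s + 2 * a

variable {D D' : ℝ → ℝ}

/-- The potential of a slope. -/
def pot (D : ℝ → ℝ) (t : ℝ) : ℝ := ∫ s in (0 : ℝ)..t, D s

theorem Slope.hasDerivAt (h : Slope D) (t : ℝ) : HasDerivAt (pot D) (D t) t :=
  (h.cont.integral_hasStrictDerivAt 0 t).hasDerivAt

theorem Slope.continuous_pot (h : Slope D) : Continuous (pot D) :=
  continuous_iff_continuousAt.2 fun t => (h.hasDerivAt t).continuousAt

theorem Slope.monotone (h : Slope D) : Monotone D := fun s t hst => by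
  have := h.lo s (t - s) (by linarith)
  rw [add_sub_cancel] at this
  linarith

theorem Slope.exists_eq (h : Slope D) (y : ℝ) : ∃ t, D t = y := by
  set M := |y - D 0| with hM
  have h0 : 0 ≤ M := abs_nonneg _
  have h1 := h.lo 0 M h0
  have h2 := h.lo (-M) M h0
  simp at h1 h2
  obtain ⟨t, -, ht⟩ := intermediate_value_Icc (by linarith : -M ≤ M) h.cont.continuousOn
    (show y ∈ Set.Icc (D (-M)) (D M) from ⟨by linarith [neg_abs_le (y - D 0)],
      by linarith [le_abs_self (y - D 0)]⟩)
  exact ⟨t, ht⟩

/-- Seen from its zero a slope gives a block potential. -/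
theorem Slope.block (h : Slope D) {r : ℝ} (hr : D r = 0) :
    Block (fun s => pot D (r + s) - pot D r) fun s => D (r + s) where
  cont := h.cont.comp (by fun_prop)
  zero := by simp
  deriv x t := by
    have g0 : HasDerivAt (fun t : ℝ => r + t • x) x t := by
      simpa only [smul_eq_mul] using (hasDerivAt_mul_const x).const_add r
    simpa [RCLike.inner_apply, mul_comm] using ((h.hasDerivAt _).comp t g0).sub_const (pot D r)
  lower x := by
    simp only [RCLike.inner_apply, conj_trivial, Real.norm_eq_abs, sq_abs]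
    rcases le_total 0 x with hx | hx
    · have := h.lo r x hx; nlinarith
    · have := h.lo (r + x) (-x) (by linarith)
      rw [add_neg_cancel_right] at this; nlinarith
  upper x := by
    simp only [RCLike.inner_apply, conj_trivial, Real.norm_eq_abs, sq_abs]
    rcases le_total 0 x with hx | hx
    · have := h.hi r x hx; nlinarith
    · have := h.hi (r + x) (-x) (by linarith)
      rw [add_neg_cancel_right] at this; nlinarith

theorem Slope.integrable (h : Slope D) : Integrable fun t => Real.exp (-pot D t) := by
  obtain ⟨r, hr⟩ := h.exists_eq 0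
  refine (((integrable_weight (h.block hr)).const_mul (Real.exp (-pot D r))).comp_sub_right r).congr
    (Filter.Eventually.of_forall fun t => ?_)
  simp only [add_sub_cancel, neg_sub, ← Real.exp_add]
  ring_nf

theorem Slope.integral_pos (h : Slope D) : 0 < ∫ t, Real.exp (-pot D t) :=
  integral_exp_pos h.integrable

/-- The density of a site. -/
def siteDensity (D : ℝ → ℝ) (t : ℝ) : ℝ := Real.exp (-pot D t) / ∫ s, Real.exp (-pot D s)

/-- The law of a site. -/
def siteLaw (D : ℝ → ℝ) : Measure ℝ :=
  volume.withDensity fun t => ENNReal.ofReal (siteDensity D t)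

theorem Slope.density_pos (h : Slope D) (t : ℝ) : 0 < siteDensity D t :=
  div_pos (Real.exp_pos _) h.integral_pos

theorem Slope.integrable_density (h : Slope D) : Integrable (siteDensity D) :=
  h.integrable.div_const _

theorem Slope.integral_density (h : Slope D) : ∫ t, siteDensity D t = 1 := by
  simp only [siteDensity]
  rw [integral_div, div_self h.integral_pos.ne']

theorem Slope.isProbability (h : Slope D) : IsProbabilityMeasure (siteLaw D) := ⟨by
  rw [siteLaw, withDensity_apply _ MeasurableSet.univ, Measure.restrict_univ,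
    ← ofReal_integral_eq_lintegral_ofReal h.integrable_density
      (Filter.Eventually.of_forall fun t => (h.density_pos t).le), h.integral_density,
    ENNReal.ofReal_one]⟩

theorem Slope.real_siteLaw (h : Slope D) {B : Set ℝ} (hB : MeasurableSet B) :
    (siteLaw D).real B = ∫ t in B, siteDensity D t := by
  rw [measureReal_def, siteLaw, withDensity_apply _ hB,
    ← ofReal_integral_eq_lintegral_ofReal h.integrable_density.integrableOn
      (Filter.Eventually.of_forall fun t => (h.density_pos t).le),
    ENNReal.toReal_ofReal (setIntegral_nonneg hB fun t _ => (h.density_pos t).le)]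

open Classical in
/-- The quantile function. -/
def quantile (μ : Measure ℝ) (u : ℝ) : ℝ :=
  if u ∈ Set.Ioo (0 : ℝ) 1 then sInf {t | u ≤ ProbabilityTheory.cdf μ t} else 0

theorem quantile_le_iff (μ : Measure ℝ) {u : ℝ} (hu : u ∈ Set.Ioo (0 : ℝ) 1) (t : ℝ) :
    quantile μ u ≤ t ↔ u ≤ ProbabilityTheory.cdf μ t := by
  set F := ProbabilityTheory.cdf μ
  obtain ⟨a, ha⟩ := ((ProbabilityTheory.tendsto_cdf_atBot μ).eventually
    (eventually_lt_nhds hu.1)).exists
  obtain ⟨b, hb⟩ := ((ProbabilityTheory.tendsto_cdf_atTop μ).eventually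
    (eventually_gt_nhds hu.2)).exists
  have hne : {s | u ≤ F s}.Nonempty := ⟨b, hb.le⟩
  have hbd : BddBelow {s | u ≤ F s} := ⟨a, fun s hs =>
    le_of_lt (lt_of_not_ge fun hsa => absurd (F.mono hsa) (not_le.2 (ha.trans_le hs)))⟩
  rw [quantile, if_pos hu]
  refine ⟨fun ht => ?_, fun ht => csInf_le hbd ht⟩
  have hev : ∀ᶠ s in nhdsWithin t (Set.Ioi t), u ≤ F s := by
    filter_upwards [self_mem_nhdsWithin] with s hs
    obtain ⟨s', hs', hlt⟩ := exists_lt_of_csInf_lt hne (lt_of_le_of_lt ht hs)
    exact le_trans hs' (F.mono hlt.le)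
  exact ge_of_tendsto ((F.right_continuous t).tendsto.mono_left
    (nhdsWithin_mono _ Set.Ioi_subset_Ici_self)) hev

theorem measurable_quantile (μ : Measure ℝ) : Measurable (quantile μ) := by
  refine measurable_of_Iic fun t => ?_
  have : quantile μ ⁻¹' Set.Iic t
      = (Set.Ioo 0 1 ∩ Set.Iic (ProbabilityTheory.cdf μ t)) ∪
        (if (0 : ℝ) ≤ t then (Set.Ioo 0 1)ᶜ else ∅) := by
    ext u
    by_cases hu : u ∈ Set.Ioo (0 : ℝ) 1
    · by_cases ht : (0 : ℝ) ≤ t <;> simp [hu, ht, quantile_le_iff μ hu, Set.mem_Ioo.1 hu]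
    · have h0 : quantile μ u = 0 := by rw [quantile, if_neg hu]
      by_cases ht : (0 : ℝ) ≤ t <;> simp [hu, ht, h0]
  rw [this]
  split_ifs <;> measurability

/-- Uniform numbers for the quantiles. -/
def openUnif : Measure ℝ := volume.restrict (Set.Ioo 0 1)

instance : IsProbabilityMeasure openUnif := ⟨by simp [openUnif]⟩

theorem map_quantile (μ : Measure ℝ) [IsProbabilityMeasure μ] :
    openUnif.map (quantile μ) = μ := by
  have := Measure.isProbabilityMeasure_map (μ := openUnif) (measurable_quantile μ).aemeasurable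
  refine Measure.eq_of_cdf _ _ (StieltjesFunction.ext fun t => ?_)
  rw [ProbabilityTheory.cdf_eq_real, measureReal_def,
    Measure.map_apply (measurable_quantile μ) measurableSet_Iic, openUnif,
    Measure.restrict_apply (measurable_quantile μ measurableSet_Iic)]
  have h1 := ProbabilityTheory.cdf_le_one μ t
  have h0 := ProbabilityTheory.cdf_nonneg μ t
  set c := ProbabilityTheory.cdf μ t with hc
  have hset : quantile μ ⁻¹' Set.Iic t ∩ Set.Ioo 0 1 = Set.Ioo 0 1 ∩ Set.Iic c := by
    ext u
    constructor
    · exact fun h => ⟨h.2, (quantile_le_iff μ h.2 t).1 h.1⟩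
    · exact fun h => ⟨(quantile_le_iff μ h.1 t).2 h.2, h.1⟩
  rw [hset]
  rcases h1.lt_or_eq with hlt | heq
  · rw [show Set.Ioo 0 1 ∩ Set.Iic c = Set.Ioc 0 c from Set.ext fun u =>
      ⟨fun h => ⟨h.1.1, h.2⟩, fun h => ⟨⟨h.1, lt_of_le_of_lt h.2 hlt⟩, h.2⟩⟩,
      Real.volume_Ioc, sub_zero, ENNReal.toReal_ofReal h0]
  · rw [show Set.Ioo 0 1 ∩ Set.Iic c = Set.Ioo 0 1 from Set.inter_eq_left.2 fun u hu =>
      (show u ≤ c from (le_of_lt hu.2).trans heq.ge), Real.volume_Ioo,
      sub_zero, ENNReal.toReal_ofReal zero_le_one, heq]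

/-- The distribution function moves with the slope. -/
theorem cdf_shift (h : Slope D) (h' : Slope D') {a : ℝ} (hle : ∀ s, D s ≤ D' (s + a)) (t : ℝ) :
    ProbabilityTheory.cdf (siteLaw D) t ≤ ProbabilityTheory.cdf (siteLaw D') (t + a) := by
  have := h.isProbability
  have := h'.isProbability
  set p := fun s => Real.exp (-pot D s)
  set q := fun s => Real.exp (-pot D' (s + a))
  have hp : Integrable p := h.integrable
  have hq : Integrable q := h'.integrable.comp_add_right a
  have hr : Monotone fun s => pot D' (s + a) - pot D s :=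
    monotone_of_hasDerivAt_nonneg (fun s => ((h'.hasDerivAt (s + a)).comp_add_const s a).sub
      (h.hasDerivAt s)) fun s => sub_nonneg.2 (hle s)
  set k := q t / p t
  have hk : 0 < k := by positivity
  have hkey : ∀ s, q s = p s * Real.exp (-(pot D' (s + a) - pot D s)) := fun s => by
    simp only [p, q, ← Real.exp_add]; ring_nf
  have hkt : k = Real.exp (-(pot D' (t + a) - pot D t)) := by
    simp only [k]; rw [hkey, mul_div_cancel_left₀ _ (Real.exp_ne_zero _)]
  have hlow : k * ∫ s in Set.Iic t, p s ≤ ∫ s in Set.Iic t, q s := by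
    rw [← integral_const_mul]
    refine setIntegral_mono_on (hp.const_mul k).integrableOn hq.integrableOn measurableSet_Iic
      fun s hs => ?_
    rw [hkey, hkt, mul_comm]
    exact mul_le_mul_of_nonneg_left (Real.exp_le_exp.2 (neg_le_neg (hr hs))) (Real.exp_nonneg _)
  have hhigh : ∫ s in (Set.Iic t)ᶜ, q s ≤ k * ∫ s in (Set.Iic t)ᶜ, p s := by
    rw [← integral_const_mul]
    refine setIntegral_mono_on hq.integrableOn (hp.const_mul k).integrableOn
      measurableSet_Iic.compl fun s hs => ?_
    have hts : t ≤ s := le_of_lt (not_le.1 hs)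
    rw [hkey, hkt, mul_comm (Real.exp (-(pot D' (t + a) - pot D t)))]
    exact mul_le_mul_of_nonneg_left (Real.exp_le_exp.2 (neg_le_neg (hr hts))) (Real.exp_nonneg _)
  have hA : 0 ≤ ∫ s in Set.Iic t, p s :=
    setIntegral_nonneg measurableSet_Iic fun s _ => (Real.exp_pos _).le
  have hB : 0 ≤ ∫ s in (Set.Iic t)ᶜ, p s :=
    setIntegral_nonneg measurableSet_Iic.compl fun s _ => (Real.exp_pos _).le
  have e1 : ∫ s in Set.Iic (t + a), Real.exp (-pot D' s) = ∫ s in Set.Iic t, q s := by
    have e : MeasurePreserving (fun s : ℝ => s + a) volume volume :=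
      measurePreserving_add_right volume a
    rw [← e.setIntegral_preimage_emb (measurableEmbedding_addRight a)]
    simp [q]
  have e2 : ∫ s, Real.exp (-pot D' s) = ∫ s, q s :=
    (integral_add_right_eq_self (μ := volume) (fun s => Real.exp (-pot D' s)) a).symm
  rw [ProbabilityTheory.cdf_eq_real, ProbabilityTheory.cdf_eq_real, h.real_siteLaw measurableSet_Iic,
    h'.real_siteLaw measurableSet_Iic]
  simp only [siteDensity]
  rw [integral_div, integral_div, e1, e2,
    div_le_div_iff₀ h.integral_pos (e2 ▸ h'.integral_pos),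
    ← integral_add_compl (measurableSet_Iic (a := t)) hp,
    ← integral_add_compl (measurableSet_Iic (a := t)) hq]
  have i1 := mul_le_mul_of_nonneg_left hhigh hA
  have i2 := mul_le_mul_of_nonneg_right hlow hB
  nlinarith

/-- Quantiles move by at most the shift of the slopes. -/
theorem quantile_shift (h : Slope D) (h' : Slope D') {a : ℝ} (hle : ∀ s, D s ≤ D' (s + a)) (u : ℝ)
    (hu : u ∈ Set.Ioo (0 : ℝ) 1) :
    quantile (siteLaw D') u ≤ quantile (siteLaw D) u + a :=
  (quantile_le_iff _ hu _).2
    (le_trans ((quantile_le_iff _ hu _).1 le_rfl) (cdf_shift h h' hle _))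

end

end P347
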